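import Vale.Agent.P237.AllN.Universal.Loss
import Vale.Agent.P237.AllN.Final

/-!
# P237 in all dimensions, up to a constant: the induction and the product of the losses
-/

namespace Vale.Agent.P237.AllN.Universal

open MeasureTheory Set Function Topology Filter
open scoped Pointwise
open Full (Cvx ratio coords volume_toLp)

/-- One contact at least passes the gate. -/
def GateSelects (b : ℕ) : Prop :=
  ∀ K : Set (Pt (b + 1)), P227.Zono.Body K → unitBall (b + 1) ⊆ K →
  ∀ (N : ℕ) (u : Fin N → Pt (b + 1)) (c : Fin N → ℝ),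
    (∀ i, 0 < c i) → (∑ i, c i = (b : ℝ) + 1) → (∀ x, ∑ i, (c i * (u i ⬝ᵥ x)) • u i = x) →
  ∀ r : Fin N → ℝ → ℝ,
    (∀ i, (volume K).toReal = unitBallVolume b * ∫ t in (-1 : ℝ)..1, r i t ^ b) →
    (∀ i (φ : ℝ → ℝ), Continuous φ → ∫ x in K, φ (u i ⬝ᵥ x)
      = ∫ t, unitBallVolume b * profileArea b (r i) t * φ t) →
    ∃ i, GateFor b (r i)

/-- The bound on the ratio in dimension `m + 1` with a factor `c`. -/
def RatioAtLeast (m : ℕ) (c : ℝ) : Prop :=
  ∀ L : Set (Pt (m + 1)), Cvx L → c * pettyConst (m + 1) ≤ ratio L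

theorem gateFor_smul {b : ℕ} {r : ℝ → ℝ} (h : GateFor b r) {s : ℝ} (hs : 0 ≤ s) :
    GateFor b fun t => s * r t := by
  intro a a1 M hd hc hM hM1
  have key := mul_le_mul_of_nonneg_left (h a a1 M hd hc hM hM1) (pow_nonneg hs b)
  have e : ∀ f : ℝ → ℝ, ∫ t in (-1 : ℝ)..1, f t * (s * r t) ^ b
      = s ^ b * ∫ t in (-1 : ℝ)..1, f t * r t ^ b := fun f => by
    rw [← intervalIntegral.integral_const_mul]
    refine intervalIntegral.integral_congr fun t _ => ?_
    show f t * (s * r t) ^ b = s ^ b * (f t * r t ^ b)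
    rw [mul_pow]
    ring
  have e1 := e fun _ => 1
  simp only [one_mul] at e1
  rw [e, e, e1]
  linarith

/-- A profile that passes the gate is at least as good as the semicircle up to the loss. -/
theorem moment_loss {b : ℕ} (hb : 2 ≤ b) {r : ℝ → ℝ} (hr : Admissible r) (hg : GateFor b r) {T : ℝ}
    (hT : 0 < T) (hsmall : 20 * T ^ 2 + 1 / (b : ℝ) ≤ 1 / 4) :
    (1 - loss b T) * ((∫ t in (-1 : ℝ)..1, semicircle t ^ (b - 1)) ^ b
        * (∫ t in (-1 : ℝ)..1, r t ^ b) ^ (b - 1))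
      ≤ (∫ t in (-1 : ℝ)..1, r t ^ (b - 1)) ^ b
        * (∫ t in (-1 : ℝ)..1, semicircle t ^ b) ^ (b - 1) := by
  have hpos : ∀ t ∈ Ioo (-1 : ℝ) 1, 0 < r t := fun t ht =>
    (semicircle_pos ht).trans_le (hr.above t (Ioo_subset_Icc_self ht))
  have hnn : ∀ t ∈ Icc (-1 : ℝ) 1, 0 ≤ r t := fun t ht =>
    (semicircle_nonneg t).trans (hr.above t ht)
  have hanti : AntitoneOn r (Icc 0 1) := by
    intro x hx y hy hxy
    have hm : x ∈ segment ℝ (-y) y := by
      rw [segment_eq_Icc (by linarith [hy.1])]; exact ⟨by linarith [hx.1, hy.1], hxy⟩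
    have := hr.concave.ge_on_segment (x := -y) (y := y) ⟨by linarith [hy.2], by linarith [hy.1]⟩
      ⟨by linarith [hy.1], hy.2⟩ hm
    simpa [hr.even] using this
  have hi01 : ∀ j : ℕ, IntervalIntegrable (fun t => r t ^ j) volume 0 1 := fun j => by
    refine AntitoneOn.intervalIntegrable ?_
    rw [uIcc_of_le zero_le_one]
    exact fun x hx y hy hxy => pow_le_pow_left₀ (hnn y ⟨by linarith [hy.1], hy.2⟩) (hanti hx hy hxy) j
  have hi : ∀ j : ℕ, IntervalIntegrable (fun t => r t ^ j) volume (-1) 1 := fun j => by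
    have h1 := hi01 j
    have h2 : IntervalIntegrable (fun t => r t ^ j) volume (-1) 0 := by
      have e := h1.comp_sub_left 0
      simp only [zero_sub, neg_zero, hr.even] at e
      exact e.symm
    exact h2.trans h1
  have he : ∀ j : ℕ, ∫ t in (-1 : ℝ)..1, r t ^ j = 2 * ∫ t in (0 : ℝ)..1, r t ^ j := fun j =>
    integral_even (fun t => by rw [hr.even]) (hi j)
  set Y := ∫ t in (0 : ℝ)..1, r t ^ b
  set X := ∫ t in (0 : ℝ)..1, r t ^ (b - 1)
  have hY : 0 < Y := intervalIntegral.intervalIntegral_pos_of_pos_on (hi01 b)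
    (fun t ht => pow_pos (hpos t ⟨by linarith [ht.1], ht.2⟩) b) one_pos
  have hX : 0 ≤ X := intervalIntegral.integral_nonneg zero_le_one fun t ht =>
    pow_nonneg (hnn t ⟨by linarith [ht.1], ht.2⟩) _
  have hc := semiMass_pos b
  have hc1 := semiMass_pos (b - 1)
  set s : ℝ := (semiMass b / Y) ^ ((b : ℝ)⁻¹)
  have hs0 : 0 < s := Real.rpow_pos_of_pos (div_pos hc hY) _
  have hsb : s ^ b = semiMass b / Y := Real.rpow_inv_natCast_pow (div_pos hc hY).le (by omega)
  have hS : Scaled b fun t => s * r t :=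
    ⟨fun t => by rw [hr.even], hr.concave.smul hs0.le, fun t ht => mul_pos hs0 (hpos t ht),
      fun t ht => mul_nonneg hs0.le (hnn t ht), by
        simp only [mul_pow, intervalIntegral.integral_const_mul, hsb]
        exact div_mul_cancel₀ _ hY.ne'⟩
  have key := scaled_loss hS (gateFor_smul hg hs0.le) hb hT hsmall
  simp only [mul_pow, intervalIntegral.integral_const_mul] at key
  change (b : ℝ) * (1 - s ^ (b - 1) * X / semiMass (b - 1)) ≤ loss b T at key
  set v : ℝ := s ^ (b - 1) * X / semiMass (b - 1)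
  have hv : 0 ≤ v := by positivity
  have hber := one_add_mul_le_pow (show -2 ≤ v - 1 by linarith) b
  rw [add_sub_cancel] at hber
  have hvb : 1 - loss b T ≤ v ^ b := by linarith
  have hvE : v ^ b = semiMass b ^ (b - 1) * X ^ b / (Y ^ (b - 1) * semiMass (b - 1) ^ b) := by
    simp only [v]
    rw [div_pow, mul_pow, ← pow_mul, mul_comm (b - 1) b, pow_mul, hsb, div_pow,
      div_mul_eq_mul_div, div_div]
  rw [hvE, le_div_iff₀ (by positivity)] at hvb
  rw [he, he, integral_semicircle_eq, integral_semicircle_eq]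
  simp only [mul_pow]
  calc (1 - loss b T) * (2 ^ b * semiMass (b - 1) ^ b * (2 ^ (b - 1) * Y ^ (b - 1)))
      = 2 ^ b * 2 ^ (b - 1) * ((1 - loss b T) * (Y ^ (b - 1) * semiMass (b - 1) ^ b)) := by ring
    _ ≤ 2 ^ b * 2 ^ (b - 1) * (semiMass b ^ (b - 1) * X ^ b) :=
        mul_le_mul_of_nonneg_left hvb (by positivity)
    _ = _ := by ring

/-- A step of the induction. -/
theorem step_loss {k : ℕ} {c : ℝ} (hk : 1 ≤ k) (hc0 : 0 ≤ c) (hIH : RatioAtLeast k c)
    (hsel : GateSelects (k + 1)) {T : ℝ} (hT : 0 < T)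
    (hsmall : 20 * T ^ 2 + 1 / ((k + 1 : ℕ) : ℝ) ≤ 1 / 4) :
    RatioAtLeast (k + 1) (c * (1 - loss (k + 1) T)) := by
  obtain ⟨K, hK, hmin⟩ := Full.exists_min (k + 1)
  intro L hL
  refine le_trans ?_ (hmin L hL)
  obtain ⟨S, hS, hball, N, u, w, hcu, hsum, hdec⟩ := john hK
  set K' := S '' K
  have hmin' : ∀ L : Set (Pt (k + 2)), Cvx L → ratio K' ≤ ratio L := fun L hL =>
    (Full.ratio_image S K).le.trans (hmin L hL)
  obtain ⟨γ, hγ, -, hvol, hgain⟩ := Full.minimiser_structure hS hmin'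
  have hP := (pettyConst_pos k).le
  choose r hev hcv hab hV hmarg hG using fun i =>
    exists_profile (mul_nonneg hc0 hP) hIH hS hball (hcu i).2.1 (hcu i).2.2
  obtain ⟨i, hi⟩ := hsel K' hS hball N u w (fun i => (hcu i).1) (by rw [hsum]) hdec r hV hmarg
  set κ := unitBallVolume (k + 1)
  have hκ : 0 < κ := unitBallVolume_pos _
  set X := ∫ t in (-1 : ℝ)..1, r i t ^ k
  set Y := ∫ t in (-1 : ℝ)..1, r i t ^ (k + 1)
  have hpos := (Cvx.of_body hS).volume_pos
  have hY : 0 < Y := pos_of_mul_pos_right (hV i ▸ hpos) hκ.le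
  have hrat : ratio K' = γ / (κ * Y) ^ k := by
    rw [Full.ratio, hvol, hV i, pow_succ, mul_div_mul_right _ _ (by positivity : κ * Y ≠ 0)]
  have hge : c * pettyConst (k + 1) * (κ ^ k * X ^ (k + 1)) ≤ γ := by
    have := hG i
    rwa [hgain, (hcu i).2.2, mul_one] at this
  have hm := moment_loss (show 2 ≤ k + 1 by omega) ⟨hev i, hcv i, hab i⟩ hi hT hsmall
  have hp := pettyConst_succ (Nat.succ_pos k)
  rw [Nat.succ_eq_add_one] at hp
  rw [Nat.add_sub_cancel] at hm hp
  rw [show ratio K = ratio K' from (Full.ratio_image S K).symm, hrat, le_div_iff₀ (by positivity),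
    mul_pow]
  refine le_trans ?_ hge
  set S0 := ∫ t in (-1 : ℝ)..1, semicircle t ^ (k + 1)
  set S1 := ∫ t in (-1 : ℝ)..1, semicircle t ^ k
  have hS0 : 0 < S0 ^ k := pow_pos (by
    simp only [S0]; rw [integral_semicircle_eq]; exact mul_pos two_pos (semiMass_pos _)) k
  refine le_of_mul_le_mul_right ?_ hS0
  calc c * (1 - loss (k + 1) T) * pettyConst (k + 1 + 1) * (κ ^ k * Y ^ k) * S0 ^ k
      = c * (κ ^ k * ((1 - loss (k + 1) T) * (pettyConst (k + 1 + 1) * S0 ^ k * Y ^ k))) := by ring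
    _ = c * pettyConst (k + 1) * κ ^ k * ((1 - loss (k + 1) T) * (S1 ^ (k + 1) * Y ^ k)) := by
        rw [hp]; ring
    _ ≤ c * pettyConst (k + 1) * κ ^ k * (X ^ (k + 1) * S0 ^ k) :=
        mul_le_mul_of_nonneg_left hm (by positivity)
    _ = _ := by ring

/-- In every single dimension the ratio is bounded below by a positive number. -/
theorem exists_ratioAtLeast (m : ℕ) : ∃ c, 0 < c ∧ RatioAtLeast m c := by
  obtain ⟨K, hK, hmin⟩ := Full.exists_min m
  have hC := Cvx.of_body hK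
  have hr : 0 < ratio K := div_pos hC.cvx_gainBody.volume_pos (pow_pos hC.volume_pos _)
  exact ⟨ratio K / pettyConst (m + 1), div_pos hr (pettyConst_pos m), fun L hL => by
    rw [div_mul_cancel₀ _ (pettyConst_pos m).ne']; exact hmin L hL⟩

/-- The cut-off in dimension `b`. -/
noncomputable def cutAt (b : ℕ) : ℝ := (b : ℝ) ^ (-(1 : ℝ) / 3)

theorem cutAt_pos {b : ℕ} (hb : 0 < b) : 0 < cutAt b := Real.rpow_pos_of_pos (Nat.cast_pos.2 hb) _

theorem loss_nonneg (b : ℕ) (T : ℝ) : 0 ≤ loss b T := by unfold loss; positivity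

theorem loss_le {b : ℕ} (hb : 2 ≤ b) :
    loss b (cutAt b)
      ≤ (4 * 4 ^ 10 * (Nat.factorial 10 : ℝ) + 8 * 21 ^ 2) * (b : ℝ) ^ (-(4 : ℝ) / 3) := by
  have hb' : (2 : ℝ) ≤ b := by exact_mod_cast hb
  have hb0 : (0 : ℝ) < b := by linarith
  set T := cutAt b
  set y := (b : ℝ) ^ ((1 : ℝ) / 3)
  have hy : 0 < y := Real.rpow_pos_of_pos hb0 _
  have hT2 : T ^ 2 = (b : ℝ) ^ (-(2 : ℝ) / 3) := by
    rw [← Real.rpow_natCast, show T = cutAt b from rfl, cutAt, ← Real.rpow_mul hb0.le]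
    norm_num
  have hbT : (b : ℝ) * T ^ 2 = y := by
    rw [hT2]
    nth_rewrite 1 [← Real.rpow_one (b : ℝ)]
    rw [← Real.rpow_add hb0]
    norm_num [y]
  have hinv : 1 / (b : ℝ) ≤ T ^ 2 := by
    rw [hT2, one_div, ← Real.rpow_neg_one]
    exact Real.rpow_le_rpow_of_exponent_le (by linarith) (by norm_num)
  have hb1 : (((b - 1 : ℕ) : ℝ)) = (b : ℝ) - 1 := by rw [Nat.cast_sub (by omega), Nat.cast_one]
  have hexp : ∀ j : ℝ, (b : ℝ) / 2 ≤ j →
      Real.exp (-(j * T ^ 2 / 2)) ≤ 4 ^ 10 * (Nat.factorial 10 : ℝ) / y ^ 10 := by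
    intro j hj
    have h1 : y / 4 ≤ j * T ^ 2 / 2 := by
      rw [← hbT]; nlinarith [sq_nonneg T]
    refine (Real.exp_le_exp.2 (neg_le_neg h1)).trans ?_
    have h2 := Real.pow_div_factorial_le_exp (y / 4) (by positivity) 10
    have h3 : 0 < (y / 4) ^ 10 / (Nat.factorial 10 : ℝ) := by positivity
    rw [Real.exp_neg]
    refine (inv_anti₀ h3 h2).trans (le_of_eq ?_)
    rw [inv_div, div_pow, div_div_eq_mul_div, mul_comm]
  set P := 4 ^ 10 * (Nat.factorial 10 : ℝ) / y ^ 10
  have e0 := hexp (b : ℝ) (by linarith)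
  have e1 := hexp ((b : ℝ) - 1) (by linarith)
  have hP : 0 ≤ P := by positivity
  have hb2 : (b : ℝ) ^ 2 * (1 / y ^ 10) = (b : ℝ) ^ (-(4 : ℝ) / 3) := by
    rw [← Real.rpow_natCast y, ← Real.rpow_mul hb0.le, one_div, ← Real.rpow_neg hb0.le,
      ← Real.rpow_natCast, ← Real.rpow_add hb0]
    norm_num
  have hT4 : (T ^ 2) ^ 2 = (b : ℝ) ^ (-(4 : ℝ) / 3) := by
    rw [hT2, ← Real.rpow_natCast, ← Real.rpow_mul hb0.le]
    norm_num
  have hA : loss b T ≤ (b : ℝ) * (2 * (b : ℝ) * P) + 2 * (b : ℝ) * ((b : ℝ) * P)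
      + 8 * (21 * T ^ 2) ^ 2 := by
    unfold loss
    rw [hb1]
    refine add_le_add (add_le_add ?_ ?_) ?_
    · exact mul_le_mul_of_nonneg_left (mul_le_mul (by linarith) e1 (Real.exp_nonneg _)
        (by linarith)) hb0.le
    · refine mul_le_mul_of_nonneg_left (e0.trans ?_) (by linarith)
      exact le_mul_of_one_le_left hP (by linarith)
    · refine mul_le_mul_of_nonneg_left (pow_le_pow_left₀ (by positivity) (by linarith) 2) (by norm_num)
  refine hA.trans (le_of_eq ?_)
  rw [show (4 * 4 ^ 10 * (Nat.factorial 10 : ℝ) + 8 * 21 ^ 2) * (b : ℝ) ^ (-(4 : ℝ) / 3)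
    = 4 * 4 ^ 10 * (Nat.factorial 10 : ℝ) * (b : ℝ) ^ (-(4 : ℝ) / 3)
      + 8 * 21 ^ 2 * (b : ℝ) ^ (-(4 : ℝ) / 3) by ring]
  nth_rewrite 1 [← hb2]
  rw [← hT4]
  simp only [P]
  ring

theorem cutAt_small {b : ℕ} (hb : 1000000 ≤ b) :
    20 * cutAt b ^ 2 + 1 / (b : ℝ) ≤ 1 / 4 := by
  have hb' : (1000000 : ℝ) ≤ b := by exact_mod_cast hb
  have h0 : (0 : ℝ) < b := by linarith
  have h100 : (100 : ℝ) ≤ (b : ℝ) ^ ((1 : ℝ) / 3) := by
    have := Real.rpow_le_rpow (by norm_num) hb' (show (0 : ℝ) ≤ 1 / 3 by norm_num)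
    refine le_trans (le_of_eq ?_) this
    rw [show (1000000 : ℝ) = 100 ^ (3 : ℕ) by norm_num, ← Real.rpow_natCast, ← Real.rpow_mul
      (by norm_num)]
    norm_num
  have hT : cutAt b = ((b : ℝ) ^ ((1 : ℝ) / 3))⁻¹ := by
    rw [cutAt, ← Real.rpow_neg h0.le]; norm_num
  have h1 : cutAt b ≤ 1 / 100 := by
    rw [hT, one_div (100 : ℝ)]; exact inv_anti₀ (by norm_num) h100
  have h2 : 0 ≤ cutAt b := Real.rpow_nonneg h0.le _
  have h3 : 1 / (b : ℝ) ≤ 1 / 1000000 := one_div_le_one_div_of_le (by norm_num) hb'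
  nlinarith

theorem summable_loss : Summable fun b : ℕ => loss b (cutAt b) := by
  set C : ℝ := 4 * 4 ^ 10 * (Nat.factorial 10 : ℝ) + 8 * 21 ^ 2
  have hs : Summable fun b : ℕ => C * (b : ℝ) ^ (-(4 : ℝ) / 3) :=
    (Real.summable_nat_rpow.2 (by norm_num)).mul_left C
  refine Summable.of_norm_bounded_eventually_nat hs ?_
  filter_upwards [eventually_ge_atTop 2] with b hb
  rw [Real.norm_eq_abs, abs_of_nonneg (loss_nonneg _ _)]
  exact loss_le hb

/-- A single factor serves in all dimensions. -/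
theorem exists_uniform (hsel : ∀ b, 2 ≤ b → GateSelects b) :
    ∃ c, 0 < c ∧ ∀ m, RatioAtLeast m c := by
  set f : ℕ → ℝ := fun b => loss b (cutAt b)
  have htail := tendsto_sum_nat_add f
  obtain ⟨N, hN, hsum⟩ : ∃ N, 1000000 ≤ N ∧ ∑' j, f (j + N) ≤ 1 / 2 := by
    obtain ⟨N, hN⟩ := ((eventually_ge_atTop 1000000).and
      (htail.eventually (eventually_le_nhds (show (0 : ℝ) < 1 / 2 by norm_num)))).exists
    exact ⟨N, hN⟩
  have hsN : Summable fun j => f (j + N) := (summable_nat_add_iff N).2 summable_loss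
  have hpart : ∀ j, ∑ i ∈ Finset.range j, f (i + N) ≤ 1 / 2 := fun j =>
    (hsN.sum_le_tsum _ fun i _ => loss_nonneg _ _).trans hsum
  choose c hc hR using exists_ratioAtLeast
  obtain ⟨M, rfl⟩ : ∃ M, N = M + 1 := ⟨N - 1, by omega⟩
  have key : ∀ j, RatioAtLeast (M + j) (c M * (1 - ∑ i ∈ Finset.range j, f (i + (M + 1)))) := by
    intro j
    induction j with
    | zero => simpa using hR M
    | succ j ih =>
      have h1 := hpart j
      have h2 := hpart (j + 1)
      have hS : 0 ≤ ∑ i ∈ Finset.range j, f (i + (M + 1)) :=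
        Finset.sum_nonneg fun i _ => loss_nonneg _ _
      have hst := step_loss (k := M + j) (show 1 ≤ M + j by omega)
        (mul_nonneg (hc M).le (by linarith)) ih (hsel _ (by omega))
        (cutAt_pos (show 0 < M + j + 1 by omega)) (cutAt_small (show 1000000 ≤ M + j + 1 by omega))
      intro L hL
      refine le_trans ?_ (hst L hL)
      refine mul_le_mul_of_nonneg_right ?_ (pettyConst_pos _).le
      rw [Finset.sum_range_succ, mul_assoc, show j + (M + 1) = M + j + 1 by omega]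
      refine mul_le_mul_of_nonneg_left ?_ (hc M).le
      have hf : 0 ≤ f (M + j + 1) := loss_nonneg _ _
      have e : (1 - ∑ i ∈ Finset.range j, f (i + (M + 1))) * (1 - f (M + j + 1))
          = 1 - ((∑ i ∈ Finset.range j, f (i + (M + 1))) + f (M + j + 1))
            + (∑ i ∈ Finset.range j, f (i + (M + 1))) * f (M + j + 1) := by ring
      show _ ≤ (1 - ∑ i ∈ Finset.range j, f (i + (M + 1))) * (1 - f (M + j + 1))
      rw [e]
      exact le_add_of_nonneg_right (mul_nonneg hS hf)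
  have hne : (Finset.range (M + 1)).Nonempty := ⟨0, by simp⟩
  set e := (Finset.range (M + 1)).inf' hne c
  have he : 0 < e := (Finset.lt_inf'_iff _).2 fun i _ => hc i
  refine ⟨e / 2, by positivity, fun m L hL => ?_⟩
  rcases le_or_gt m M with hm | hm
  · refine le_trans ?_ (hR m L hL)
    have : e ≤ c m := Finset.inf'_le c (Finset.mem_range.2 (by omega))
    exact mul_le_mul_of_nonneg_right (by linarith) (pettyConst_pos _).le
  · obtain ⟨j, rfl⟩ : ∃ j, m = M + j := ⟨m - M, by omega⟩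
    refine le_trans ?_ (key j L hL)
    have : e ≤ c M := Finset.inf'_le c (Finset.mem_range.2 (by omega))
    refine mul_le_mul_of_nonneg_right ?_ (pettyConst_pos _).le
    calc e / 2 ≤ c M * (1 / 2) := by linarith only [this]
      _ ≤ _ := mul_le_mul_of_nonneg_left (by linarith only [hpart j]) (hc M).le

/-- The bound on the ratio read on convex bodies of `ℝ^(m+1)`. -/
theorem petty_factor_of {m : ℕ} {c : ℝ} (hB : RatioAtLeast m c)
    {K : Set (EuclideanSpace ℝ (Fin (m + 1)))} (hK : IsCompact K)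
    (hc : Convex ℝ K) (hi : (interior K).Nonempty) :
    c * pettyConst (m + 1) * euclVolume (m + 1) K ^ m ≤ euclVolume (m + 1) (projBody K) := by
  set K' := WithLp.ofLp '' K
  have hKK : WithLp.toLp 2 '' K' = K := by simp [K', image_image]
  have hK' : IsCompact K' := hK.image (PiLp.continuous_ofLp 2 _)
  have hc' : Convex ℝ K' := hc.linear_image (coords (m + 1)).toLinearMap
  obtain ⟨p, hp⟩ := hi
  set v : Pt (m + 1) := -WithLp.ofLp p
  set L := (fun x => x + v) '' K'
  have hL : Cvx L := by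
    refine ⟨hK'.image (continuous_id.add continuous_const), ?_, ?_⟩
    · simpa [L, add_comm] using hc'.translate v
    · have hF : Continuous fun z : Pt (m + 1) => WithLp.toLp 2 (z - v) :=
        (PiLp.continuous_toLp 2 _).comp (continuous_id.sub continuous_const)
      have h0 : K ∈ 𝓝 (WithLp.toLp 2 ((0 : Pt (m + 1)) - v)) := by
        simpa [v] using mem_interior_iff_mem_nhds.1 hp
      refine Filter.mem_of_superset (hF.continuousAt h0) fun z hz => ?_
      exact ⟨z - v, ⟨_, hz, rfl⟩, sub_add_cancel z v⟩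
  have hvolL : (volume L).toReal = euclVolume (m + 1) K := by
    rw [euclVolume, ← hKK, volume_toLp hK'.measurableSet, volume_translate]
  have hproj : euclVolume (m + 1) (projBody K) = (volume (gainBody K')).toReal := by
    rw [euclVolume, ← hKK, projBody_eq hK' hc', volume_toLp (isClosed_gainBody _).measurableSet]
  have hpos : 0 < euclVolume (m + 1) K := hvolL ▸ hL.volume_pos
  have hratio : ratio L = euclVolume (m + 1) (projBody K) / euclVolume (m + 1) K ^ m := by
    rw [Full.ratio_translate, Full.ratio, hproj, ← hvolL, volume_translate]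
  have h1 := hB L hL
  rwa [hratio, le_div_iff₀ (pow_pos hpos m)] at h1

end Vale.Agent.P237.AllN.Universal
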