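import Vale.Agent.P237.AllN.Universal.Fisher
import Vale.Agent.P237.AllN.Universal.Recursion

/-!
# P237 in all dimensions, up to a constant: a contact passes the gate
-/

namespace Vale.Agent.P237.AllN.Universal

open MeasureTheory Set Function Topology

theorem integral_marginal_profile {b : ℕ} (r φ : ℝ → ℝ) :
    ∫ t, unitBallVolume b * profileArea b r t * φ t
      = unitBallVolume b * ∫ t in (-1 : ℝ)..1, φ t * r t ^ b := by
  rw [show (fun t => unitBallVolume b * profileArea b r t * φ t)
      = fun t => unitBallVolume b * (Icc (-1 : ℝ) 1).indicator (fun t => φ t * r t ^ b) t from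
    funext fun t => by
      by_cases ht : t ∈ Icc (-1 : ℝ) 1
      · rw [profileArea, indicator_of_mem ht, indicator_of_mem ht]; ring
      · rw [profileArea, indicator_of_notMem ht, indicator_of_notMem ht]; ring,
    integral_const_mul, integral_indicator measurableSet_Icc, integral_Icc_eq_integral_Ioc,
    intervalIntegral.integral_of_le (by norm_num : (-1 : ℝ) ≤ 1)]

theorem gateSelects (b : ℕ) : GateSelects b := by
  intro K hK hball N u c hc hsum hdec r hV hmarg
  obtain ⟨i, hi⟩ := fisher_contact hK hball u c hc hsum hdec
  refine ⟨i, fun a a1 M hd hc1 hM hM1 => ?_⟩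
  have hac : Continuous a := continuous_iff_continuousAt.2 fun t => (hd t).continuousAt
  have h := hi a a1 M hd hc1 hM hM1
  have hg : Continuous fun t => ((b : ℝ) + 1) * a t ^ 2 + 2 * t * a t * a1 t := by fun_prop
  rw [hmarg i a1 hc1, hmarg i (fun t => ((b : ℝ) + 1) * a t ^ 2 + 2 * t * a t * a1 t) hg, hV i,
    integral_marginal_profile, integral_marginal_profile, ← mul_add, mul_left_comm] at h
  exact le_of_mul_le_mul_left h (unitBallVolume_pos b)

end Vale.Agent.P237.AllN.Universal
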