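import Vale.Agent.P237.AllN.Universal.Height

/-!
# P237 in all dimensions, up to a constant: the cut off height as a test function
-/

namespace Vale.Agent.P237.AllN.Universal

open MeasureTheory Set Function Topology Filter intervalIntegral

/-- One on `[-T, T]`, zero beyond `2 T`. -/
noncomputable def cut (T t : ℝ) : ℝ := max 0 (min 1 ((2 * T - |t|) / T))

theorem continuous_cut (T : ℝ) : Continuous (cut T) := by unfold cut; fun_prop

theorem cut_nonneg (T t : ℝ) : 0 ≤ cut T t := le_max_left _ _

theorem cut_le_one (T t : ℝ) : cut T t ≤ 1 := max_le zero_le_one (min_le_left _ _)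

theorem cut_neg (T t : ℝ) : cut T (-t) = cut T t := by simp [cut]

theorem cut_eq_one {T t : ℝ} (hT : 0 < T) (ht : |t| ≤ T) : cut T t = 1 := by
  rw [cut, min_eq_left ((le_div_iff₀ hT).2 (by linarith)), max_eq_right zero_le_one]

theorem cut_eq_zero {T t : ℝ} (hT : 0 < T) (ht : 2 * T ≤ |t|) : cut T t = 0 :=
  max_eq_left ((min_le_right _ _).trans (div_nonpos_of_nonpos_of_nonneg (by linarith) hT.le))

theorem cut_anti {T s t : ℝ} (hT : 0 < T) (h : |s| ≤ |t|) : cut T t ≤ cut T s :=
  max_le_max le_rfl (min_le_min le_rfl (div_le_div_of_nonneg_right (by linarith) hT.le))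

theorem abs_lt_of_cut_ne {T t : ℝ} (hT : 0 < T) (h : cut T t ≠ 0) : |t| < 2 * T :=
  lt_of_not_ge fun h' => h (cut_eq_zero hT h')

/-- The integral of the cut-off from the middle. -/
noncomputable def cutInt (T t : ℝ) : ℝ := ∫ u in (0 : ℝ)..t, cut T u

theorem hasDerivAt_cutInt (T t : ℝ) : HasDerivAt (cutInt T) (cut T t) t :=
  ((continuous_cut T).integral_hasStrictDerivAt 0 t).hasDerivAt

theorem continuous_cutInt (T : ℝ) : Continuous (cutInt T) :=
  continuous_iff_continuousAt.2 fun t => (hasDerivAt_cutInt T t).continuousAt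

theorem cutInt_neg (T t : ℝ) : cutInt T (-t) = -cutInt T t := by
  have e := integral_comp_neg (a := 0) (b := t) (cut T)
  rw [neg_zero, integral_congr fun u _ => cut_neg T u] at e
  rw [cutInt, cutInt, e, integral_symm]

theorem cutInt_nonneg (T : ℝ) {t : ℝ} (ht : 0 ≤ t) : 0 ≤ cutInt T t :=
  intervalIntegral.integral_nonneg ht fun u _ => cut_nonneg T u

theorem cutInt_le (T : ℝ) {t : ℝ} (ht : 0 ≤ t) : cutInt T t ≤ t := by
  refine le_trans (integral_mono_on ht ((continuous_cut T).intervalIntegrable _ _)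
    intervalIntegrable_const fun u _ => cut_le_one T u) (le_of_eq ?_)
  simp

theorem cutInt_eq {T t : ℝ} (hT : 0 < T) (ht : 2 * T ≤ t) : cutInt T t = cutInt T (2 * T) := by
  have hi := fun a c : ℝ => (continuous_cut T).intervalIntegrable (μ := volume) a c
  have h0 : ∫ u in (2 * T)..t, cut T u = 0 :=
    (integral_congr (g := fun _ => (0 : ℝ)) fun u hu => by
      rw [uIcc_of_le ht] at hu
      exact cut_eq_zero hT (hu.1.trans (le_abs_self u))).trans (by simp)
  rw [cutInt, cutInt, ← integral_add_adjacent_intervals (hi 0 (2 * T)) (hi (2 * T) t), h0, add_zero]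

theorem abs_cutInt_le {T : ℝ} (hT : 0 < T) (t : ℝ) : |cutInt T t| ≤ 2 * T := by
  have h : ∀ u, 0 ≤ u → |cutInt T u| ≤ 2 * T := fun u hu => by
    rw [abs_of_nonneg (cutInt_nonneg T hu)]
    rcases le_total u (2 * T) with h | h
    · exact (cutInt_le T hu).trans h
    · rw [cutInt_eq hT h]; exact cutInt_le T (by linarith)
  rcases le_total 0 t with ht | ht
  · exact h t ht
  · have := h (-t) (by linarith)
    rwa [cutInt_neg, abs_neg] at this

variable {b : ℕ} {r : ℝ → ℝ}

/-- The test function of the gate. -/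
noncomputable def testFun (b : ℕ) (r : ℝ → ℝ) (T s : ℝ) : ℝ := cutInt T (height b r s)

/-- Its derivative. -/
noncomputable def testSlope (b : ℕ) (r : ℝ → ℝ) (T s : ℝ) : ℝ :=
  cut T (height b r s) * stretch b r s

theorem testFun_neg (h : Scaled b r) (T s : ℝ) : testFun b r T (-s) = -testFun b r T s := by
  rw [testFun, testFun, height_neg h, cutInt_neg]

theorem testSlope_neg (h : Scaled b r) (T s : ℝ) : testSlope b r T (-s) = testSlope b r T s := by
  rw [testSlope, testSlope, height_neg h, cut_neg, stretch_neg h]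

theorem far_eventually (h : Scaled b r) {T : ℝ} (hT : 2 * T < 1) {s : ℝ}
    (hs : s ∉ Ioo (-1 : ℝ) 1) : ∀ᶠ u in 𝓝 s, 2 * T < |height b r u| := by
  have h1 : 1 ≤ |s| := by
    by_contra h'
    exact hs (abs_lt.1 (not_le.1 h'))
  exact ((continuous_height h).abs.continuousAt).eventually_const_lt
    (hT.trans_le (one_le_abs_height h h1))

theorem continuous_testSlope (h : Scaled b r) {T : ℝ} (hT0 : 0 < T) (hT : 2 * T < 1) :
    Continuous (testSlope b r T) := by
  refine continuous_iff_continuousAt.2 fun s => ?_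
  by_cases hs : s ∈ Ioo (-1 : ℝ) 1
  · exact ((continuous_cut T).comp (continuous_height h)).continuousAt.mul (continuousAt_stretch h hs)
  · refine (continuousAt_const (y := (0 : ℝ))).congr ?_
    filter_upwards [far_eventually h hT hs] with u hu
    rw [testSlope, cut_eq_zero hT0 hu.le, zero_mul]

theorem hasDerivAt_testFun (h : Scaled b r) {T : ℝ} (hT0 : 0 < T) (hT : 2 * T < 1) (s : ℝ) :
    HasDerivAt (testFun b r T) (testSlope b r T s) s := by
  by_cases hs : s ∈ Ioo (-1 : ℝ) 1
  · exact (hasDerivAt_cutInt T _).comp s (hasDerivAt_height h hs)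
  · have hf := far_eventually h hT hs
    have h0 : testSlope b r T s = 0 := by
      rw [testSlope, cut_eq_zero hT0 hf.self_of_nhds.le, zero_mul]
    rw [h0]
    have hc := (continuous_height h).continuousAt (x := s)
    rcases lt_abs.1 hf.self_of_nhds with hp | hm
    · refine (hasDerivAt_const s (cutInt T (2 * T))).congr_of_eventuallyEq ?_
      filter_upwards [hc.eventually_const_lt hp] with u hu
      exact cutInt_eq hT0 hu.le
    · refine (hasDerivAt_const s (-cutInt T (2 * T))).congr_of_eventuallyEq ?_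
      filter_upwards [hc.eventually_lt_const (show height b r s < -(2 * T) by linarith)] with u hu
      rw [testFun, ← cutInt_eq hT0 (show 2 * T ≤ -height b r u by linarith), cutInt_neg, neg_neg]

theorem exists_test_bound (h : Scaled b r) {T : ℝ} (hT0 : 0 < T) (hT : 2 * T < 1) :
    ∃ M, ∀ s, |testFun b r T s| ≤ M ∧ |testSlope b r T s| ≤ M := by
  obtain ⟨C, hC⟩ := isCompact_Icc.exists_bound_of_continuousOn
    ((continuous_testSlope h hT0 hT).continuousOn (s := Icc (-1 : ℝ) 1))
  refine ⟨max C (2 * T), fun s => ⟨(abs_cutInt_le hT0 _).trans (le_max_right _ _), ?_⟩⟩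
  by_cases hs : s ∈ Icc (-1 : ℝ) 1
  · exact (hC s hs).trans (le_max_left _ _)
  · have hs' : s ∉ Ioo (-1 : ℝ) 1 := fun h' => hs (Ioo_subset_Icc_self h')
    rw [testSlope, cut_eq_zero hT0 (far_eventually h hT hs').self_of_nhds.le, zero_mul, abs_zero]
    exact le_max_of_le_right (by linarith)

end Vale.Agent.P237.AllN.Universal
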