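import Vale.Agent.P227.Zono.Gauge
import Vale.Agent.P237.AllN.Defs

/-!
# P237 in all dimensions: the Fisher gate at one contact

For a symmetric body `K` containing the unit ball, with gauge `N`, the gradient of `N` has length at
most one. Integrating by parts against the cut-off `1 - N ^ k` and letting `k → ∞` gives, at one of
the directions of a decomposition of the identity, a bound on the derivative of any test function of
the height.
-/

namespace Vale.Agent.P237.AllN

open MeasureTheory Set Filter Topology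
open scoped NNReal
open P227.Zono (Body normalAt)

noncomputable section

variable {n : ℕ} {K : Set (Fin n → ℝ)}

/-- The cut-off `max 0 (1 - N ^ k)`. -/
def cutoff (K : Set (Fin n → ℝ)) (k : ℕ) (x : Fin n → ℝ) : ℝ := 1 - min (gauge K x) 1 ^ k

theorem cutoff_of_mem (hK : Body K) (k : ℕ) {x : Fin n → ℝ} (hx : x ∈ K) :
    cutoff K k x = 1 - gauge K x ^ k := by
  rw [cutoff, min_eq_left (hK.gauge_le_one.2 hx)]

theorem cutoff_of_notMem (hK : Body K) (k : ℕ) {x : Fin n → ℝ} (hx : x ∉ K) :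
    cutoff K k x = 0 := by
  rw [cutoff, min_eq_right (le_of_lt (not_le.1 fun h => hx (hK.gauge_le_one.1 h))), one_pow, sub_self]

theorem abs_cutoff_le (k : ℕ) (x : Fin n → ℝ) : |cutoff K k x| ≤ 1 := by
  have h0 : 0 ≤ min (gauge K x) 1 := le_min (gauge_nonneg x) zero_le_one
  rw [cutoff, abs_le]
  constructor <;> linarith [pow_nonneg h0 k, pow_le_one₀ (n := k) h0 (min_le_right _ _)]

theorem lipschitz_cutoff (hK : Body K) (k : ℕ) : ∃ C, LipschitzWith C (cutoff K k) := by
  obtain ⟨C, hC⟩ := hK.convex.lipschitz_gauge hK.nhds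
  refine ⟨(k : ℝ≥0) * C, LipschitzWith.of_dist_le_mul fun x y => ?_⟩
  have hp : ∀ z, 0 ≤ min (gauge K z) 1 ∧ min (gauge K z) 1 ≤ 1 := fun z =>
    ⟨le_min (gauge_nonneg z) zero_le_one, min_le_right _ _⟩
  simp only [Real.dist_eq, cutoff, sub_sub_sub_cancel_left]
  refine (abs_pow_sub_pow_le _ _ _).trans ?_
  have h1 : |min (gauge K y) 1 - min (gauge K x) 1| ≤ C * dist x y := by
    rw [abs_sub_comm, ← Real.dist_eq]
    exact (hC.min_const 1).dist_le_mul x y
  have h2 : max |min (gauge K y) 1| |min (gauge K x) 1| ^ (k - 1) ≤ 1 :=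
    pow_le_one₀ (le_max_of_le_left (abs_nonneg _))
      (max_le (by rw [abs_of_nonneg (hp y).1]; exact (hp y).2)
        (by rw [abs_of_nonneg (hp x).1]; exact (hp x).2))
  push_cast
  calc |min (gauge K y) 1 - min (gauge K x) 1| * k
        * max |min (gauge K y) 1| |min (gauge K x) 1| ^ (k - 1)
      ≤ |min (gauge K y) 1 - min (gauge K x) 1| * k * 1 :=
        mul_le_mul_of_nonneg_left h2 (by positivity)
    _ ≤ C * dist x y * k := by rw [mul_one]; exact mul_le_mul_of_nonneg_right h1 (by positivity)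
    _ = k * C * dist x y := by ring

theorem hasCompactSupport_cutoff (hK : Body K) (k : ℕ) : HasCompactSupport (cutoff K k) :=
  HasCompactSupport.intro hK.compact fun _ hx => cutoff_of_notMem hK k hx

theorem lipschitz_coord_cutoff (hK : Body K) (k : ℕ) (j : Fin n) :
    ∃ C, LipschitzWith C fun x => x j * cutoff K k x := by
  obtain ⟨C, hC⟩ := lipschitz_cutoff hK k
  obtain ⟨R, hR, hb⟩ := hK.compact.isBounded.exists_pos_norm_le
  refine ⟨Real.toNNReal R * C + 1, LipschitzWith.of_dist_le_mul fun x y => ?_⟩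
  have key : ∀ x y : Fin n → ℝ, x ∈ K →
      |x j * cutoff K k x - y j * cutoff K k y| ≤ (R * C + 1) * dist x y := by
    intro x y hx
    have h1 : |x j| ≤ R := (Real.norm_eq_abs _ ▸ norm_le_pi_norm x j).trans (hb x hx)
    have h2 : |x j - y j| ≤ dist x y := (Real.dist_eq _ _ ▸ dist_le_pi_dist x y j)
    have h3 : |cutoff K k x - cutoff K k y| ≤ C * dist x y := Real.dist_eq _ _ ▸ hC.dist_le_mul x y
    calc |x j * cutoff K k x - y j * cutoff K k y|
        = |x j * (cutoff K k x - cutoff K k y) + (x j - y j) * cutoff K k y| := by ring_nf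
      _ ≤ |x j| * |cutoff K k x - cutoff K k y| + |x j - y j| * |cutoff K k y| := by
          rw [← abs_mul, ← abs_mul]; exact abs_add_le _ _
      _ ≤ R * (C * dist x y) + dist x y * 1 := add_le_add
          (mul_le_mul h1 h3 (abs_nonneg _) hR.le) (mul_le_mul h2 (abs_cutoff_le k y) (abs_nonneg _) dist_nonneg)
      _ = (R * C + 1) * dist x y := by ring
  rw [Real.dist_eq]
  simp only [NNReal.coe_add, NNReal.coe_mul, NNReal.coe_one, Real.coe_toNNReal R hR.le]
  by_cases hx : x ∈ K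
  · exact key x y hx
  by_cases hy : y ∈ K
  · rw [abs_sub_comm, dist_comm]; exact key y x hy
  rw [cutoff_of_notMem hK k hx, cutoff_of_notMem hK k hy, mul_zero, mul_zero, sub_self, abs_zero]
  positivity

/-- Almost everywhere the cut-off has the derivative of `1 - N ^ k` in `K` and none outside. -/
theorem ae_lineDeriv_cutoff (hK : Body K) (k : ℕ) :
    ∀ᵐ x : Fin n → ℝ, ∀ v, HasLineDerivAt ℝ (cutoff K k)
      (K.indicator (fun x => -((k : ℝ) * gauge K x ^ (k - 1) * (normalAt K x ⬝ᵥ v))) x) x v := by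
  have hf : ∀ᵐ x : Fin n → ℝ, x ∉ frontier K :=
    compl_mem_ae_iff.2 (hK.convex.addHaar_frontier _)
  filter_upwards [hK.ae_differentiable, hf] with x hd hx v
  by_cases hxK : x ∈ K
  · have hint : x ∈ interior K := by
      by_contra h
      exact hx ⟨subset_closure hxK, h⟩
    rw [indicator_of_mem hxK]
    have h := (hd.hasFDerivAt.pow k).const_sub (1 : ℝ)
    have heq : cutoff K k =ᶠ[𝓝 x] fun y => 1 - gauge K y ^ k :=
      Filter.eventually_of_mem (mem_interior_iff_mem_nhds.1 hint) fun y hy => cutoff_of_mem hK k hy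
    have h2 := (h.congr_of_eventuallyEq heq).hasLineDerivAt v
    simpa [P227.Zono.normalAt_dot, mul_comm, mul_left_comm, mul_assoc] using h2
  · rw [indicator_of_notMem hxK]
    have heq : cutoff K k =ᶠ[𝓝 x] fun _ => (0 : ℝ) :=
      Filter.eventually_of_mem (hK.compact.isClosed.isOpen_compl.mem_nhds hxK) fun y hy =>
        cutoff_of_notMem hK k hy
    have h2 := ((hasFDerivAt_const (𝕜 := ℝ) (0 : ℝ) x).congr_of_eventuallyEq heq).hasLineDerivAt v
    simpa using h2

theorem integral_mul_cutoff (hK : Body K) (k : ℕ) (h : (Fin n → ℝ) → ℝ) :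
    ∫ x, h x * cutoff K k x = ∫ x in K, h x * (1 - gauge K x ^ k) := by
  rw [← setIntegral_eq_integral_of_forall_compl_eq_zero
    (s := K) fun x hx => by rw [cutoff_of_notMem hK k hx, mul_zero]]
  exact setIntegral_congr_fun hK.compact.measurableSet fun x hx => by
    simp only [cutoff_of_mem hK k hx]

/-- A compactly bounded continuous function times a bounded gradient is integrable on `K`. -/
theorem integrableOn_mul_normal (hK : Body K) {f : (Fin n → ℝ) → ℝ} (hf : Continuous f)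
    (v : Fin n → ℝ) : IntegrableOn (fun x => f x * (normalAt K x ⬝ᵥ v)) K := by
  obtain ⟨C, hC⟩ := hK.convex.lipschitz_gauge hK.nhds
  refine IntegrableOn.continuousOn_mul hf.continuousOn ?_ hK.compact
  simp only [P227.Zono.normalAt_dot]
  refine Measure.integrableOn_of_bounded (M := C * ‖v‖) hK.compact.measure_lt_top.ne
    (measurable_fderiv_apply_const ℝ _ v).aestronglyMeasurable ?_
  refine Eventually.of_forall fun x => ?_
  exact (ContinuousLinearMap.le_opNorm _ _).trans
    (mul_le_mul_of_nonneg_right (norm_fderiv_le_of_lipschitz ℝ hC) (norm_nonneg _))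

variable {a a1 : ℝ → ℝ} {M : ℝ}

theorem lipschitz_height (w : Fin n → ℝ) (ha : ∀ t, HasDerivAt a (a1 t) t)
    (hM : ∀ t, |a1 t| ≤ M) : ∃ C, LipschitzWith C fun x : Fin n → ℝ => a (w ⬝ᵥ x) := by
  have h1 : LipschitzWith (Real.toNNReal M) a :=
    lipschitzWith_of_nnnorm_deriv_le (fun t => (ha t).differentiableAt) fun t => by
      rw [(ha t).deriv, ← NNReal.coe_le_coe, coe_nnnorm, Real.norm_eq_abs]
      exact (hM t).trans (Real.le_coe_toNNReal M)
  set φ : (Fin n → ℝ) →L[ℝ] ℝ := LinearMap.toContinuousLinearMap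
    ({ toFun := fun z => w ⬝ᵥ z
       map_add' := dotProduct_add w
       map_smul' := fun c z => dotProduct_smul c w z } : (Fin n → ℝ) →ₗ[ℝ] ℝ)
  exact ⟨_, h1.comp φ.lipschitz⟩

theorem hasLineDerivAt_height (w : Fin n → ℝ) (ha : ∀ t, HasDerivAt a (a1 t) t) (x v : Fin n → ℝ) :
    HasLineDerivAt ℝ (fun x => a (w ⬝ᵥ x)) (a1 (w ⬝ᵥ x) * (w ⬝ᵥ v)) x v := by
  show HasDerivAt (fun s : ℝ => a (w ⬝ᵥ (x + s • v))) _ 0
  have h : HasDerivAt (fun s : ℝ => w ⬝ᵥ (x + s • v)) (w ⬝ᵥ v) 0 := by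
    simpa [dotProduct_add, dotProduct_smul] using
      ((hasDerivAt_id (0 : ℝ)).mul_const (w ⬝ᵥ v)).const_add (w ⬝ᵥ x)
  exact (ha (w ⬝ᵥ x)).comp_of_eq 0 h (by simp)

/-- Parts against the cut-off, in a fixed direction. -/
theorem ibp_dir (hK : Body K) (k : ℕ) (w v : Fin n → ℝ) (ha : ∀ t, HasDerivAt a (a1 t) t)
    (hM1 : ∀ t, |a1 t| ≤ M) :
    ∫ x in K, a1 (w ⬝ᵥ x) * (w ⬝ᵥ v) * (1 - gauge K x ^ k)
      = ∫ x in K, a (w ⬝ᵥ x) * ((k : ℝ) * gauge K x ^ (k - 1)) * (normalAt K x ⬝ᵥ v) := by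
  obtain ⟨C, hC⟩ := lipschitz_height w ha hM1
  obtain ⟨D, hD⟩ := lipschitz_cutoff hK k
  have h := LipschitzWith.integral_lineDeriv_mul_eq (μ := volume) hC hD
    (hasCompactSupport_cutoff hK k) v
  simp only [(hasLineDerivAt_height w ha _ v).lineDeriv] at h
  rw [integral_mul_cutoff hK k] at h
  refine h.trans ?_
  rw [← integral_indicator hK.compact.measurableSet]
  refine integral_congr_ae ?_
  filter_upwards [ae_lineDeriv_cutoff hK k] with x hx
  rw [(hx (-v)).lineDeriv]
  by_cases hxK : x ∈ K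
  · rw [indicator_of_mem hxK, indicator_of_mem hxK, dotProduct_neg]; ring
  · rw [indicator_of_notMem hxK, indicator_of_notMem hxK, zero_mul]

/-- Parts against the cut-off, for the radial field. -/
theorem ibp_radial (hK : Body K) {k : ℕ} (hk : 1 ≤ k) (w : Fin n → ℝ)
    (ha : ∀ t, HasDerivAt a (a1 t) t) (ha1 : Continuous a1)
    (hM : ∀ t, |a t| ≤ M) (hM1 : ∀ t, |a1 t| ≤ M) :
    ∫ x in K, ((n : ℝ) * a (w ⬝ᵥ x) ^ 2 + 2 * (w ⬝ᵥ x) * a (w ⬝ᵥ x) * a1 (w ⬝ᵥ x))
        * (1 - gauge K x ^ k)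
      = (k : ℝ) * ∫ x in K, a (w ⬝ᵥ x) ^ 2 * gauge K x ^ k := by
  have hd : ∀ t, HasDerivAt (fun t => a t ^ 2) (2 * a t * a1 t) t := fun t => by
    simpa using (ha t).fun_pow 2
  have hb : ∀ t, |2 * a t * a1 t| ≤ 2 * M * M := fun t => by
    rw [abs_mul, abs_mul, abs_two]
    have := (abs_nonneg (a t)).trans (hM t)
    gcongr
    · exact hM t
    · exact hM1 t
  obtain ⟨C, hC⟩ := lipschitz_height w hd hb
  have hca : Continuous a := continuous_iff_continuousAt.2 fun t => (ha t).continuousAt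
  have hdot : Continuous fun x : Fin n → ℝ => w ⬝ᵥ x :=
    continuous_finsetSum _ fun i _ => continuous_const.mul (continuous_apply i)
  have hcg : Continuous (gauge K) := continuous_gauge hK.convex hK.nhds
  have hf : Continuous fun x => a (w ⬝ᵥ x) ^ 2 := (hca.comp hdot).pow 2
  set e : Fin n → Fin n → ℝ := fun j => Pi.single j 1 with he
  have hj : ∀ j, ∫ x in K, 2 * a (w ⬝ᵥ x) * a1 (w ⬝ᵥ x) * w j * x j * (1 - gauge K x ^ k)
      = ∫ x in K, (-(a (w ⬝ᵥ x) ^ 2 * (1 - gauge K x ^ k))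
          + a (w ⬝ᵥ x) ^ 2 * x j * ((k : ℝ) * gauge K x ^ (k - 1)) * (normalAt K x ⬝ᵥ e j)) := by
    intro j
    obtain ⟨D, hD⟩ := lipschitz_coord_cutoff hK k j
    have h := LipschitzWith.integral_lineDeriv_mul_eq (μ := volume) hC hD
      ((hasCompactSupport_cutoff hK k).mul_left) (e j)
    simp only [(hasLineDerivAt_height w hd _ (e j)).lineDeriv] at h
    have e1 : w ⬝ᵥ e j = w j := by simp [he]
    simp only [e1] at h
    rw [show (∫ x, 2 * a (w ⬝ᵥ x) * a1 (w ⬝ᵥ x) * w j * (x j * cutoff K k x))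
        = ∫ x, 2 * a (w ⬝ᵥ x) * a1 (w ⬝ᵥ x) * w j * x j * cutoff K k x from
        integral_congr_ae (Eventually.of_forall fun x => (mul_assoc _ _ _).symm),
      integral_mul_cutoff hK k] at h
    refine h.trans ?_
    rw [← integral_indicator hK.compact.measurableSet]
    refine integral_congr_ae ?_
    filter_upwards [ae_lineDeriv_cutoff hK k] with x hx
    have hp : HasLineDerivAt ℝ (fun x : Fin n → ℝ => x j * cutoff K k x)
        (-1 * cutoff K k x + x j * K.indicator
          (fun x => -((k : ℝ) * gauge K x ^ (k - 1) * (normalAt K x ⬝ᵥ -e j))) x) x (-e j) := by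
      have h1 : HasDerivAt (fun s : ℝ => (x + s • -e j) j) (-1) 0 := by
        simpa [he] using (hasDerivAt_id (0 : ℝ)).neg.const_add (x j)
      have h2 := h1.fun_mul (hx (-e j))
      show HasDerivAt (fun s : ℝ => (x + s • -e j) j * cutoff K k (x + s • -e j)) _ 0
      simpa [he] using h2
    rw [hp.lineDeriv]
    by_cases hxK : x ∈ K
    · rw [indicator_of_mem hxK, indicator_of_mem hxK, cutoff_of_mem hK k hxK, dotProduct_neg]; ring
    · rw [indicator_of_notMem hxK, indicator_of_notMem hxK, cutoff_of_notMem hK k hxK]; ring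
  have i1 : ∀ j, IntegrableOn
      (fun x => 2 * a (w ⬝ᵥ x) * a1 (w ⬝ᵥ x) * w j * x j * (1 - gauge K x ^ k)) K := fun j =>
    ContinuousOn.integrableOn_compact hK.compact (by fun_prop)
  have i2 : IntegrableOn (fun x => -(a (w ⬝ᵥ x) ^ 2 * (1 - gauge K x ^ k))) K :=
    ContinuousOn.integrableOn_compact hK.compact (by fun_prop)
  have i3 : ∀ j, IntegrableOn
      (fun x => a (w ⬝ᵥ x) ^ 2 * x j * ((k : ℝ) * gauge K x ^ (k - 1)) * (normalAt K x ⬝ᵥ e j)) K :=
    fun j => integrableOn_mul_normal hK (by fun_prop) _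
  have hsum : ∫ x in K, 2 * (w ⬝ᵥ x) * a (w ⬝ᵥ x) * a1 (w ⬝ᵥ x) * (1 - gauge K x ^ k)
      = ∫ x in K, (-((n : ℝ) * (a (w ⬝ᵥ x) ^ 2 * (1 - gauge K x ^ k)))
          + (k : ℝ) * (a (w ⬝ᵥ x) ^ 2 * gauge K x ^ k)) := by
    have lhs : ∀ x : Fin n → ℝ, 2 * (w ⬝ᵥ x) * a (w ⬝ᵥ x) * a1 (w ⬝ᵥ x) * (1 - gauge K x ^ k)
        = ∑ j, 2 * a (w ⬝ᵥ x) * a1 (w ⬝ᵥ x) * w j * x j * (1 - gauge K x ^ k) := fun x => by
      generalize a (w ⬝ᵥ x) = A
      generalize a1 (w ⬝ᵥ x) = B
      simp only [dotProduct, Finset.mul_sum, Finset.sum_mul]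
      exact Finset.sum_congr rfl fun j _ => by ring
    simp only [lhs]
    have i4 : ∀ j, IntegrableOn (fun x => -(a (w ⬝ᵥ x) ^ 2 * (1 - gauge K x ^ k))
        + a (w ⬝ᵥ x) ^ 2 * x j * ((k : ℝ) * gauge K x ^ (k - 1)) * (normalAt K x ⬝ᵥ e j)) K :=
      fun j => i2.add (i3 j)
    rw [integral_finsetSum _ fun j _ => i1 j, Finset.sum_congr rfl fun j _ => hj j,
      ← integral_finsetSum _ fun j _ => i4 j]
    refine setIntegral_congr_ae hK.compact.measurableSet ?_
    filter_upwards [hK.ae_differentiable] with x hd' _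
    have hs := hK.dot_self hd'
    simp only [dotProduct] at hs
    simp only [Finset.sum_add_distrib, Finset.sum_neg_distrib, Finset.sum_const, Finset.card_univ,
      Fintype.card_fin, nsmul_eq_mul, he, dotProduct_single, mul_one]
    congr 1
    rw [show gauge K x ^ k = gauge K x ^ (k - 1) * gauge K x by
      rw [← pow_succ, Nat.sub_add_cancel hk]]
    generalize gauge K x ^ (k - 1) = P
    rw [← hs]
    simp only [Finset.mul_sum]
    exact Finset.sum_congr rfl fun j _ => by ring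
  have j1 : IntegrableOn (fun x => (n : ℝ) * (a (w ⬝ᵥ x) ^ 2 * (1 - gauge K x ^ k))) K :=
    ContinuousOn.integrableOn_compact hK.compact (by fun_prop)
  have j2 : IntegrableOn
      (fun x => 2 * (w ⬝ᵥ x) * a (w ⬝ᵥ x) * a1 (w ⬝ᵥ x) * (1 - gauge K x ^ k)) K :=
    ContinuousOn.integrableOn_compact hK.compact (by fun_prop)
  have j3 : IntegrableOn (fun x => (k : ℝ) * (a (w ⬝ᵥ x) ^ 2 * gauge K x ^ k)) K :=
    ContinuousOn.integrableOn_compact hK.compact (by fun_prop)
  have j1n : IntegrableOn (fun x => -((n : ℝ) * (a (w ⬝ᵥ x) ^ 2 * (1 - gauge K x ^ k)))) K := j1.neg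
  rw [integral_add j1n j3, integral_neg] at hsum
  rw [← integral_const_mul, ← sub_eq_zero]
  have e2 : ∀ x : Fin n → ℝ,
      ((n : ℝ) * a (w ⬝ᵥ x) ^ 2 + 2 * (w ⬝ᵥ x) * a (w ⬝ᵥ x) * a1 (w ⬝ᵥ x)) * (1 - gauge K x ^ k)
      = (n : ℝ) * (a (w ⬝ᵥ x) ^ 2 * (1 - gauge K x ^ k))
        + 2 * (w ⬝ᵥ x) * a (w ⬝ᵥ x) * a1 (w ⬝ᵥ x) * (1 - gauge K x ^ k) := fun x => by ring
  simp only [e2]
  rw [integral_add j1 j2, hsum]
  ring

theorem tendsto_cutoff_integral (hK : Body K) {F : (Fin n → ℝ) → ℝ} (hF : Continuous F) :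
    Tendsto (fun k : ℕ => ∫ x in K, F x * (1 - gauge K x ^ k)) atTop (𝓝 (∫ x in K, F x)) := by
  have hcg : Continuous (gauge K) := continuous_gauge hK.convex hK.nhds
  refine tendsto_integral_of_dominated_convergence (fun x => |F x|)
    (fun k => (by fun_prop : Continuous fun x => F x * (1 - gauge K x ^ k)).aestronglyMeasurable)
    (hF.abs.continuousOn.integrableOn_compact hK.compact) (fun k => ?_) ?_
  · refine ae_restrict_of_forall_mem hK.compact.measurableSet fun x hx => ?_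
    rw [Real.norm_eq_abs, abs_mul]
    refine mul_le_of_le_one_right (abs_nonneg _) ?_
    rw [← cutoff_of_mem hK k hx]
    exact abs_cutoff_le k x
  · have hf : ∀ᵐ x : Fin n → ℝ, x ∉ frontier K :=
      compl_mem_ae_iff.2 (hK.convex.addHaar_frontier _)
    filter_upwards [ae_restrict_mem hK.compact.measurableSet, ae_restrict_of_ae hf] with x hx hxf
    have hint : x ∈ interior K := by
      by_contra h
      exact hxf ⟨subset_closure hx, h⟩
    have hlt : gauge K x < 1 := interior_subset_gauge_lt_one K hint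
    simpa using ((tendsto_pow_atTop_nhds_zero_of_lt_one (gauge_nonneg x) hlt).const_sub 1).const_mul (F x)

/-- The Fisher gate: one contact bounds the derivative of every test function of the height. -/
theorem fisher_contact {b : ℕ} {K : Set (Fin (b + 1) → ℝ)} (hK : Body K)
    (hball : unitBall (b + 1) ⊆ K) {N : ℕ} (u : Fin N → Fin (b + 1) → ℝ)
    (c : Fin N → ℝ) (hc : ∀ i, 0 < c i) (hsum : ∑ i, c i = (b : ℝ) + 1)
    (hdec : ∀ x, ∑ i, (c i * (u i ⬝ᵥ x)) • u i = x) :
    ∃ i, ∀ (a a1 : ℝ → ℝ) (M : ℝ), (∀ t, HasDerivAt a (a1 t) t) → Continuous a1 →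
      (∀ t, |a t| ≤ M) → (∀ t, |a1 t| ≤ M) →
      2 * (∫ x in K, a1 (u i ⬝ᵥ x)) ≤
        (∫ x in K, ((b : ℝ) + 1) * a (u i ⬝ᵥ x) ^ 2
          + 2 * (u i ⬝ᵥ x) * a (u i ⬝ᵥ x) * a1 (u i ⬝ᵥ x)) + (volume K).toReal := by
  have hcg : Continuous (gauge K) := continuous_gauge hK.convex hK.nhds
  set V := (volume K).toReal
  set lam : Fin N → ℝ := fun i => u i ⬝ᵥ u i
  have hsq : ∀ z, ∑ i, c i * (u i ⬝ᵥ z) ^ 2 = z ⬝ᵥ z := fun z => by
    conv_rhs => arg 1; rw [← hdec z]
    simp only [sum_dotProduct, smul_dotProduct, smul_eq_mul]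
    exact Finset.sum_congr rfl fun i _ => by ring
  have htr : ∑ i, c i * lam i = (b : ℝ) + 1 := by
    calc ∑ i, c i * lam i = ∑ i, ∑ j, c i * (u i ⬝ᵥ Pi.single j 1) ^ 2 := by
          refine Finset.sum_congr rfl fun i _ => ?_
          simp only [lam, dotProduct, Finset.mul_sum]
          exact Finset.sum_congr rfl fun j _ => by simp [Pi.single_apply, sq]
      _ = ∑ j : Fin (b + 1), (Pi.single j 1 : Fin (b + 1) → ℝ) ⬝ᵥ Pi.single j 1 := by
          rw [Finset.sum_comm]
          exact Finset.sum_congr rfl fun j _ => hsq _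
      _ = _ := by simp
  -- the gradient of the gauge has length at most one
  have hgrad : ∀ᵐ x : Fin (b + 1) → ℝ, normalAt K x ⬝ᵥ normalAt K x ≤ 1 := by
    filter_upwards [hK.ae_differentiable] with x hd
    set v := normalAt K x
    rcases eq_or_lt_of_le (show 0 ≤ v ⬝ᵥ v from Finset.sum_nonneg fun i _ => mul_self_nonneg _)
      with h | h
    · linarith
    have hs := Real.sq_sqrt h.le
    have hs0 := Real.sqrt_pos.2 h
    have hw : (√(v ⬝ᵥ v))⁻¹ • v ∈ K := hball (by
      show ((√(v ⬝ᵥ v))⁻¹ • v) ⬝ᵥ ((√(v ⬝ᵥ v))⁻¹ • v) ≤ 1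
      rw [smul_dotProduct, dotProduct_smul, smul_eq_mul, smul_eq_mul, ← mul_assoc, ← mul_inv,
        ← sq, hs, inv_mul_cancel₀ h.ne'])
    have h1 := (hK.dot_le_gauge hd _).trans (hK.gauge_le_one.2 hw)
    rw [dotProduct_smul, smul_eq_mul, inv_mul_le_iff₀ hs0, mul_one] at h1
    nlinarith
  -- the energies along the directions
  set q : ℕ → Fin N → ℝ := fun k i =>
    ∫ x in K, (k : ℝ) * gauge K x ^ (k - 1) * (normalAt K x ⬝ᵥ u i) ^ 2 with hq
  have hqi : ∀ (k : ℕ) i, IntegrableOn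
      (fun x => (k : ℝ) * gauge K x ^ (k - 1) * (normalAt K x ⬝ᵥ u i) ^ 2) K := by
    intro k i
    obtain ⟨C, hC⟩ := hK.convex.lipschitz_gauge hK.nhds
    refine IntegrableOn.continuousOn_mul (continuousOn_const.mul (hcg.continuousOn.fun_pow _)) ?_ hK.compact
    simp only [P227.Zono.normalAt_dot]
    refine Measure.integrableOn_of_bounded (M := (C * ‖u i‖) ^ 2) hK.compact.measure_lt_top.ne
      ((measurable_fderiv_apply_const ℝ _ (u i)).pow_const 2).aestronglyMeasurable ?_
    refine Eventually.of_forall fun x => ?_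
    rw [norm_pow]
    exact pow_le_pow_left₀ (norm_nonneg _) ((ContinuousLinearMap.le_opNorm _ _).trans
      (mul_le_mul_of_nonneg_right (norm_fderiv_le_of_lipschitz ℝ hC) (norm_nonneg _))) 2
  have hN : ∀ j : ℕ, 1 ≤ j → ((b : ℝ) + 1 + j) * ∫ x in K, gauge K x ^ j = ((b : ℝ) + 1) * V := by
    intro j hj
    have h := ibp_radial (a := fun _ => (1 : ℝ)) (a1 := fun _ => (0 : ℝ)) (M := 1) (w := 0) hK hj
      (fun t => hasDerivAt_const t 1) continuous_const (fun t => by simp) fun t => by simp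
    simp only [one_pow, mul_one, mul_zero, add_zero, one_mul] at h
    have c1 : IntegrableOn (fun _ : Fin (b + 1) → ℝ => (1 : ℝ)) K :=
      continuousOn_const.integrableOn_compact hK.compact
    have c2 : IntegrableOn (fun x => gauge K x ^ j) K :=
      (hcg.pow j).continuousOn.integrableOn_compact hK.compact
    rw [integral_const_mul, integral_sub c1 c2, setIntegral_const, smul_eq_mul, mul_one] at h
    push_cast at h
    show _ = ((b : ℝ) + 1) * (volume K).toReal
    rw [show (volume K).toReal = volume.real K from rfl]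
    linarith
  have htotal : ∀ k : ℕ, 1 ≤ k → ∑ i, c i * q k i ≤ ((b : ℝ) + 1) * V := by
    intro k hk
    have h1 : ∑ i, c i * q k i ≤ ∫ x in K, (k : ℝ) * gauge K x ^ (k - 1) := by
      simp only [hq, ← integral_const_mul]
      rw [← integral_finsetSum _ fun i _ => ((hqi k i).const_mul _)]
      refine setIntegral_mono_on_ae (integrable_finsetSum _ fun i _ => (hqi k i).const_mul _)
        (ContinuousOn.integrableOn_compact hK.compact (by fun_prop)) hK.compact.measurableSet ?_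
      filter_upwards [hgrad] with x hx _
      have h0 : 0 ≤ (k : ℝ) * gauge K x ^ (k - 1) :=
        mul_nonneg k.cast_nonneg (pow_nonneg (gauge_nonneg x) _)
      calc ∑ i, c i * ((k : ℝ) * gauge K x ^ (k - 1) * (normalAt K x ⬝ᵥ u i) ^ 2)
          = (k : ℝ) * gauge K x ^ (k - 1) * ∑ i, c i * (u i ⬝ᵥ normalAt K x) ^ 2 := by
            rw [Finset.mul_sum]
            exact Finset.sum_congr rfl fun i _ => by rw [dotProduct_comm (u i)]; ring
        _ ≤ _ := by rw [hsq]; exact mul_le_of_le_one_right h0 hx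
    refine h1.trans ?_
    rcases eq_or_lt_of_le hk with rfl | hk2
    · simp only [Nat.cast_one, Nat.sub_self, pow_zero, mul_one, setIntegral_const, smul_eq_mul]
      exact le_mul_of_one_le_left ENNReal.toReal_nonneg (by linarith [(Nat.cast_nonneg b : (0:ℝ) ≤ b)])
    · have h := hN (k - 1) (by omega)
      rw [Nat.cast_sub hk, Nat.cast_one] at h
      rw [integral_const_mul]
      have hI : 0 ≤ ∫ x in K, gauge K x ^ (k - 1) :=
        setIntegral_nonneg hK.compact.measurableSet fun x _ => pow_nonneg (gauge_nonneg x) _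
      nlinarith [mul_nonneg (Nat.cast_nonneg b : (0:ℝ) ≤ b) hI]
  -- choose a direction for each cut-off, then one for infinitely many of them
  have hpick : ∀ k : ℕ, ∃ i, 2 ≤ k → 0 < lam i ∧ q k i ≤ lam i ^ 2 * V := by
    intro k
    have hne : Nonempty (Fin N) := by
      by_contra h
      rw [not_nonempty_iff] at h
      rw [Finset.univ_eq_empty, Finset.sum_empty] at hsum
      linarith [(Nat.cast_nonneg b : (0:ℝ) ≤ b)]
    by_cases hk : 2 ≤ k
    swap
    · exact ⟨hne.some, fun h => absurd h hk⟩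
    by_contra hno
    simp only [not_exists, Classical.not_imp, not_and, not_le] at hno
    have hl0 : ∀ i, 0 ≤ lam i := fun i => Finset.sum_nonneg fun j _ => mul_self_nonneg _
    have hbad : ∀ i, c i * (lam i ^ 2 * V) ≤ c i * q k i := fun i => by
      refine mul_le_mul_of_nonneg_left ?_ (hc i).le
      rcases eq_or_lt_of_le (hl0 i) with h | h
      · rw [← h]
        simp only [ne_eq, OfNat.ofNat_ne_zero, not_false_eq_true, zero_pow, zero_mul]
        exact setIntegral_nonneg hK.compact.measurableSet fun x _ =>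
          mul_nonneg (mul_nonneg k.cast_nonneg (pow_nonneg (gauge_nonneg x) _)) (sq_nonneg _)
      · exact ((hno i).2 h).le
    obtain ⟨i0, hi0⟩ : ∃ i, 0 < lam i := by
      by_contra h
      simp only [not_exists, not_lt] at h
      have : ∑ i, c i * lam i ≤ 0 :=
        Finset.sum_nonpos fun i _ => mul_nonpos_of_nonneg_of_nonpos (hc i).le (h i)
      linarith [(Nat.cast_nonneg b : (0:ℝ) ≤ b)]
    have hlt : ∑ i, c i * (lam i ^ 2 * V) < ∑ i, c i * q k i :=
      Finset.sum_lt_sum (fun i _ => hbad i)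
        ⟨i0, Finset.mem_univ _, mul_lt_mul_of_pos_left ((hno i0).2 hi0) (hc i0)⟩
    have hcs : ((b : ℝ) + 1) ≤ ∑ i, c i * lam i ^ 2 := by
      have h : 0 ≤ ∑ i, c i * (lam i - 1) ^ 2 :=
        Finset.sum_nonneg fun i _ => mul_nonneg (hc i).le (sq_nonneg _)
      have e : ∑ i, c i * (lam i - 1) ^ 2
          = ∑ i, c i * lam i ^ 2 - 2 * ∑ i, c i * lam i + ∑ i, c i := by
        rw [Finset.mul_sum, ← Finset.sum_sub_distrib, ← Finset.sum_add_distrib]
        exact Finset.sum_congr rfl fun i _ => by ring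
      linarith
    have hV : 0 ≤ V := ENNReal.toReal_nonneg
    have := htotal k (by omega)
    have e : ∑ i, c i * (lam i ^ 2 * V) = (∑ i, c i * lam i ^ 2) * V := by
      rw [Finset.sum_mul]; exact Finset.sum_congr rfl fun i _ => by ring
    nlinarith [mul_le_mul_of_nonneg_right hcs hV]
  choose idx hidx using hpick
  obtain ⟨i, hi⟩ : ∃ i, ∃ᶠ k in atTop, idx k = i := by
    by_contra h
    simp only [not_exists, not_frequently] at h
    obtain ⟨k, hk⟩ := (eventually_all.2 h).exists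
    exact hk (idx k) rfl
  refine ⟨i, fun a a1 M ha ha1 hM hM1 => ?_⟩
  set w := u i
  have hca : Continuous a := continuous_iff_continuousAt.2 fun t => (ha t).continuousAt
  have hdot : Continuous fun x : Fin (b + 1) → ℝ => w ⬝ᵥ x :=
    continuous_finsetSum _ fun j _ => continuous_const.mul (continuous_apply j)
  set G : (Fin (b + 1) → ℝ) → ℝ := fun x =>
    ((b : ℝ) + 1) * a (w ⬝ᵥ x) ^ 2 + 2 * (w ⬝ᵥ x) * a (w ⬝ᵥ x) * a1 (w ⬝ᵥ x) with hG
  have hstep : ∀ k : ℕ, 2 ≤ k → idx k = i →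
      2 * (∫ x in K, a1 (w ⬝ᵥ x) * (1 - gauge K x ^ k))
        ≤ (k : ℝ) / ((k : ℝ) - 1) * (∫ x in K, G x * (1 - gauge K x ^ (k - 1))) + V := by
    intro k hk hik
    obtain ⟨hl, hqk⟩ : 0 < lam i ∧ q k i ≤ lam i ^ 2 * V := hik ▸ hidx k hk
    have h1 := ibp_dir hK k w w ha hM1
    have hk1 : (0 : ℝ) < (k : ℝ) - 1 := by
      have : (2 : ℝ) ≤ k := by exact_mod_cast hk
      linarith
    have h2 := ibp_radial hK (show 1 ≤ k - 1 by omega) w ha ha1 hM hM1
    push_cast at h2
    rw [Nat.cast_sub (by omega : 1 ≤ k), Nat.cast_one] at h2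
    rw [div_mul_eq_mul_div]
    simp only [hG]
    rw [h2, ← mul_div_assoc', mul_div_cancel_left₀ _ hk1.ne']
    have hI1 : IntegrableOn (fun x => a (w ⬝ᵥ x) * ((k : ℝ) * gauge K x ^ (k - 1))
        * (normalAt K x ⬝ᵥ w)) K := integrableOn_mul_normal hK (by fun_prop) _
    have hI2 : IntegrableOn (fun x => a (w ⬝ᵥ x) ^ 2 * gauge K x ^ (k - 1)) K :=
      ContinuousOn.integrableOn_compact hK.compact (by fun_prop)
    have hmono : 2 * (∫ x in K, a (w ⬝ᵥ x) * ((k : ℝ) * gauge K x ^ (k - 1)) * (normalAt K x ⬝ᵥ w))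
        ≤ lam i * ((k : ℝ) * ∫ x in K, a (w ⬝ᵥ x) ^ 2 * gauge K x ^ (k - 1)) + q k i / lam i := by
      rw [← integral_const_mul, ← integral_const_mul, ← integral_const_mul,
        hq, ← integral_div, ← integral_add ((hI2.const_mul _).const_mul _) ((hqi k i).div_const _)]
      refine setIntegral_mono_on (hI1.const_mul 2)
        (((hI2.const_mul _).const_mul _).add ((hqi k i).div_const _))
        hK.compact.measurableSet fun x _ => ?_
      have h0 : 0 ≤ (k : ℝ) * gauge K x ^ (k - 1) :=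
        mul_nonneg k.cast_nonneg (pow_nonneg (gauge_nonneg x) _)
      rw [← sub_nonneg]
      have e : lam i * ((k : ℝ) * (a (w ⬝ᵥ x) ^ 2 * gauge K x ^ (k - 1)))
          + (k : ℝ) * gauge K x ^ (k - 1) * (normalAt K x ⬝ᵥ w) ^ 2 / lam i
          - 2 * (a (w ⬝ᵥ x) * ((k : ℝ) * gauge K x ^ (k - 1)) * (normalAt K x ⬝ᵥ w))
          = (k : ℝ) * gauge K x ^ (k - 1) * (lam i * a (w ⬝ᵥ x) - normalAt K x ⬝ᵥ w) ^ 2
            / lam i := by field_simp; ring
      rw [e]
      exact div_nonneg (mul_nonneg h0 (sq_nonneg _)) hl.le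
    have hl2 : q k i / lam i ≤ lam i * V := by
      rw [div_le_iff₀ hl]; linarith
    have e3 : ∫ x in K, a1 (w ⬝ᵥ x) * (w ⬝ᵥ w) * (1 - gauge K x ^ k)
        = lam i * ∫ x in K, a1 (w ⬝ᵥ x) * (1 - gauge K x ^ k) := by
      rw [← integral_const_mul]
      exact integral_congr_ae (Eventually.of_forall fun x => by simp only [lam, w]; ring)
    rw [e3] at h1
    rw [← h1] at hmono
    refine le_of_mul_le_mul_left ?_ hl
    linarith
  have t1 : Tendsto (fun k : ℕ => 2 * ∫ x in K, a1 (w ⬝ᵥ x) * (1 - gauge K x ^ k)) atTop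
      (𝓝 (2 * ∫ x in K, a1 (w ⬝ᵥ x))) :=
    (tendsto_cutoff_integral hK (ha1.comp hdot)).const_mul 2
  have t0 : Tendsto (fun k : ℕ => (k : ℝ) / ((k : ℝ) - 1)) atTop (𝓝 1) := by
    simpa [sub_eq_add_neg] using tendsto_natCast_div_add_atTop (-1 : ℝ)
  have t2 : Tendsto (fun k : ℕ => (k : ℝ) / ((k : ℝ) - 1)
      * (∫ x in K, G x * (1 - gauge K x ^ (k - 1))) + V) atTop (𝓝 ((∫ x in K, G x) + V)) := by
    have hGc : Continuous G := by simp only [hG]; fun_prop
    simpa using (t0.mul ((tendsto_cutoff_integral hK hGc).comp (tendsto_sub_atTop_nat 1))).add_const V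
  refine le_of_tendsto_of_tendsto_of_frequently t1 t2 ?_
  exact (hi.and_eventually (eventually_ge_atTop 2)).mono fun k hk => hstep k hk.2 hk.1

end

end Vale.Agent.P237.AllN
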