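import Vale.Agent.P237.AllN.Universal.Semicircle
import Vale.Agent.P237.AllN.Step

/-!
# P237 in all dimensions, up to a constant: the height of a profile seen on the semicircle

For a scaled profile `r` the height `height b r s` is the point of the semicircle's distribution
that carries the mass of `r ^ b` below `s`. A cut off copy of it is the test function of the gate.
-/

namespace Vale.Agent.P237.AllN.Universal

open MeasureTheory Set Function Topology Filter intervalIntegral

/-- A profile with the mass of the semicircle. -/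
structure Scaled (b : ℕ) (r : ℝ → ℝ) : Prop where
  even : ∀ t, r (-t) = r t
  concave : ConcaveOn ℝ (Icc (-1) 1) r
  pos : ∀ t ∈ Ioo (-1 : ℝ) 1, 0 < r t
  nonneg : ∀ t ∈ Icc (-1 : ℝ) 1, 0 ≤ r t
  mass : ∫ t in (0 : ℝ)..1, r t ^ b = semiMass b

variable {b : ℕ} {r : ℝ → ℝ}

theorem Scaled.anti (h : Scaled b r) {s t : ℝ} (hs : 0 ≤ s) (hst : s ≤ t) (ht : t ≤ 1) :
    r t ≤ r s := by
  have hm : s ∈ segment ℝ (-t) t := by
    rw [segment_eq_Icc (by linarith)]; exact ⟨by linarith, hst⟩
  have := h.concave.ge_on_segment (x := -t) (y := t) ⟨by linarith, by linarith⟩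
    ⟨by linarith, ht⟩ hm
  simpa [h.even] using this

theorem Scaled.le_zero (h : Scaled b r) {t : ℝ} (ht : t ∈ Icc (-1 : ℝ) 1) : r t ≤ r 0 := by
  rcases le_total 0 t with h0 | h0
  · exact h.anti le_rfl h0 ht.2
  · rw [← h.even t]; exact h.anti le_rfl (by linarith) (by linarith [ht.1])

theorem Scaled.continuousOn (h : Scaled b r) : ContinuousOn r (Ioo (-1 : ℝ) 1) :=
  (h.concave.subset Ioo_subset_Icc_self (convex_Ioo _ _)).continuousOn isOpen_Ioo

/-- The mass density of the profile. -/
noncomputable def powInside (b : ℕ) (r : ℝ → ℝ) : ℝ → ℝ :=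
  (Ioo (-1 : ℝ) 1).indicator fun t => r t ^ b

/-- The mass of the profile below a height, from the middle. -/
noncomputable def massBelow (b : ℕ) (r : ℝ → ℝ) (s : ℝ) : ℝ := ∫ t in (0 : ℝ)..s, powInside b r t

theorem Scaled.integrable_pow (h : Scaled b r) (j : ℕ) :
    Integrable ((Ioo (-1 : ℝ) 1).indicator fun t => r t ^ j) := by
  have hfin : IsFiniteMeasure (volume.restrict (Ioo (-1 : ℝ) 1)) :=
    isFiniteMeasure_restrict.2 measure_Ioo_lt_top.ne
  rw [integrable_indicator_iff measurableSet_Ioo]
  refine Integrable.of_bound ((h.continuousOn.pow j).aestronglyMeasurable measurableSet_Ioo)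
    (r 0 ^ j) ?_
  filter_upwards [ae_restrict_mem measurableSet_Ioo] with t ht
  rw [Real.norm_eq_abs, abs_of_nonneg (pow_nonneg (h.pos t ht).le j)]
  exact pow_le_pow_left₀ (h.pos t ht).le (h.le_zero (Ioo_subset_Icc_self ht)) j

theorem integral_indicator_pow (r : ℝ → ℝ) (j : ℕ) :
    ∫ t in (0 : ℝ)..1, (Ioo (-1 : ℝ) 1).indicator (fun t => r t ^ j) t
      = ∫ t in (0 : ℝ)..1, r t ^ j := by
  refine intervalIntegral.integral_congr_ae ?_
  filter_upwards [Measure.ae_ne volume (1 : ℝ)] with t h1 ht
  rw [uIoc_of_le zero_le_one] at ht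
  rw [indicator_of_mem]
  exact ⟨by linarith [ht.1], lt_of_le_of_ne ht.2 h1⟩

theorem powInside_nonneg (h : Scaled b r) (t : ℝ) : 0 ≤ powInside b r t :=
  indicator_nonneg (fun t ht => pow_nonneg (h.pos t ht).le b) t

theorem powInside_neg (h : Scaled b r) (t : ℝ) : powInside b r (-t) = powInside b r t := by
  by_cases ht : t ∈ Ioo (-1 : ℝ) 1
  · have ht' : -t ∈ Ioo (-1 : ℝ) 1 := ⟨by linarith [ht.2], by linarith [ht.1]⟩
    simp only [powInside, indicator_of_mem ht, indicator_of_mem ht', h.even]
  · have ht' : -t ∉ Ioo (-1 : ℝ) 1 := fun h => ht ⟨by linarith [h.2], by linarith [h.1]⟩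
    simp only [powInside, indicator_of_notMem ht, indicator_of_notMem ht']

theorem intervalIntegrable_powInside (h : Scaled b r) (a c : ℝ) :
    IntervalIntegrable (powInside b r) volume a c :=
  (h.integrable_pow b).intervalIntegrable

theorem continuousAt_powInside (h : Scaled b r) {s : ℝ} (hs : s ∈ Ioo (-1 : ℝ) 1) :
    ContinuousAt (powInside b r) s := by
  refine ((h.continuousOn.pow b).continuousAt (isOpen_Ioo.mem_nhds hs)).congr ?_
  filter_upwards [isOpen_Ioo.mem_nhds hs] with t ht
  simp [powInside, indicator_of_mem ht]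

theorem continuous_massBelow (h : Scaled b r) : Continuous (massBelow b r) :=
  intervalIntegral.continuous_primitive (intervalIntegrable_powInside h) 0

theorem hasDerivAt_massBelow (h : Scaled b r) {s : ℝ} (hs : s ∈ Ioo (-1 : ℝ) 1) :
    HasDerivAt (massBelow b r) (powInside b r s) s :=
  integral_hasDerivAt_right (intervalIntegrable_powInside h 0 s)
    (h.integrable_pow b).aestronglyMeasurable.stronglyMeasurableAtFilter
    (continuousAt_powInside h hs)

theorem massBelow_neg (h : Scaled b r) (s : ℝ) : massBelow b r (-s) = -massBelow b r s := by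
  have e := integral_comp_neg (a := 0) (b := s) (powInside b r)
  rw [neg_zero, integral_congr fun t _ => powInside_neg h t] at e
  rw [massBelow, massBelow, e, integral_symm]

theorem massBelow_one (h : Scaled b r) : massBelow b r 1 = semiMass b := by
  rw [massBelow, powInside, integral_indicator_pow, h.mass]

theorem monotone_massBelow (h : Scaled b r) : Monotone (massBelow b r) := by
  intro s t hst
  rw [massBelow, massBelow, ← intervalIntegral.integral_add_adjacent_intervals
    (intervalIntegrable_powInside h 0 s) (intervalIntegrable_powInside h s t)]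
  linarith [intervalIntegral.integral_nonneg hst (f := powInside b r) (μ := volume)
    (fun u _ => powInside_nonneg h u)]

/-- The semicircle's weight, continued so that the mass runs over the whole line. -/
noncomputable def semiWeight (b : ℕ) (t : ℝ) : ℝ := semicircle t ^ b + max (|t| - 1) 0

theorem continuous_semiWeight (b : ℕ) : Continuous (semiWeight b) :=
  (continuous_semicircle_pow b).add (by fun_prop)

theorem semiWeight_pos (b : ℕ) {t : ℝ} (ht : |t| ≠ 1) : 0 < semiWeight b t := by
  rcases lt_or_gt_of_ne ht with h | h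
  · exact add_pos_of_pos_of_nonneg (pow_pos (semicircle_pos (abs_lt.1 h)) b) (le_max_right _ _)
  · exact add_pos_of_nonneg_of_pos (pow_nonneg (semicircle_nonneg t) b)
      (lt_max_of_lt_left (by linarith))

theorem semiWeight_nonneg (b : ℕ) (t : ℝ) : 0 ≤ semiWeight b t :=
  add_nonneg (pow_nonneg (semicircle_nonneg t) b) (le_max_right _ _)

theorem semiWeight_inside (b : ℕ) {t : ℝ} (ht : |t| ≤ 1) : semiWeight b t = semicircle t ^ b := by
  simp [semiWeight, max_eq_right (sub_nonpos.2 ht)]

/-- The semicircle's mass below a height, from the middle. -/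
noncomputable def semiBelow (b : ℕ) (t : ℝ) : ℝ := ∫ u in (0 : ℝ)..t, semiWeight b u

theorem hasDerivAt_semiBelow (b : ℕ) (t : ℝ) : HasDerivAt (semiBelow b) (semiWeight b t) t :=
  (continuous_semiWeight b).integral_hasStrictDerivAt 0 t |>.hasDerivAt

theorem continuous_semiBelow (b : ℕ) : Continuous (semiBelow b) :=
  continuous_iff_continuousAt.2 fun t => (hasDerivAt_semiBelow b t).continuousAt

theorem strictMono_semiBelow (b : ℕ) : StrictMono (semiBelow b) := by
  intro x y hxy
  have hi := fun a c : ℝ => (continuous_semiWeight b).intervalIntegrable (μ := volume) a c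
  rw [semiBelow, semiBelow, ← integral_add_adjacent_intervals (hi 0 x) (hi x y)]
  obtain ⟨c, hc, hc'⟩ : ∃ c, c ∈ Icc x y ∧ |c| ≠ 1 := by
    obtain ⟨c, hc, hc'⟩ := (Ioo_infinite hxy).exists_notMem_finset {1, -1}
    refine ⟨c, Ioo_subset_Icc_self hc, fun hh => hc' ?_⟩
    rcases (abs_eq zero_le_one).1 hh with rfl | rfl <;> simp
  linarith [intervalIntegral.integral_pos hxy (continuous_semiWeight b).continuousOn
    (fun u _ => semiWeight_nonneg b u) ⟨c, hc, semiWeight_pos b hc'⟩]

theorem semiBelow_neg (b : ℕ) (t : ℝ) : semiBelow b (-t) = -semiBelow b t := by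
  have e := integral_comp_neg (a := 0) (b := t) (semiWeight b)
  rw [neg_zero, integral_congr fun u _ => show semiWeight b (-u) = semiWeight b u by
    simp [semiWeight, semicircle_neg]] at e
  rw [semiBelow, semiBelow, e, integral_symm]

theorem semiBelow_one (b : ℕ) : semiBelow b 1 = semiMass b := by
  refine integral_congr fun t ht => semiWeight_inside b ?_
  rw [uIcc_of_le zero_le_one] at ht
  rw [abs_of_nonneg ht.1]
  exact ht.2

theorem semiBelow_ge (b : ℕ) {t : ℝ} (ht : 2 ≤ t) : t - 2 ≤ semiBelow b t := by
  have hi := fun a c : ℝ => (continuous_semiWeight b).intervalIntegrable (μ := volume) a c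
  rw [semiBelow, ← integral_add_adjacent_intervals (hi 0 2) (hi 2 t)]
  have h1 : (0 : ℝ) ≤ ∫ u in (0 : ℝ)..2, semiWeight b u :=
    intervalIntegral.integral_nonneg zero_le_two fun u _ => semiWeight_nonneg b u
  have h2 : ∫ _u in (2 : ℝ)..t, (1 : ℝ) ≤ ∫ u in (2 : ℝ)..t, semiWeight b u := by
    refine integral_mono_on ht intervalIntegrable_const (hi 2 t) fun u hu => ?_
    refine le_trans ?_ (le_add_of_nonneg_left (pow_nonneg (semicircle_nonneg u) b))
    refine le_max_of_le_left ?_
    rw [abs_of_nonneg (by linarith [hu.1])]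
    linarith [hu.1]
  simp at h2
  linarith

theorem surjective_semiBelow (b : ℕ) : Surjective (semiBelow b) := by
  refine (continuous_semiBelow b).surjective ?_ ?_
  · refine tendsto_atTop_mono' atTop ?_ (tendsto_atTop_add_const_right atTop (-2) tendsto_id)
    filter_upwards [eventually_ge_atTop 2] with t ht using semiBelow_ge b ht
  · refine tendsto_atBot_mono' atBot ?_ (tendsto_atBot_add_const_right atBot 2 tendsto_id)
    filter_upwards [eventually_le_atBot (-2)] with t ht
    have := semiBelow_ge b (t := -t) (by linarith)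
    rw [semiBelow_neg] at this
    simp only [id_eq]
    linarith

/-- The mass of the semicircle as a change of variable of the line. -/
noncomputable def semiOrder (b : ℕ) : ℝ ≃o ℝ :=
  StrictMono.orderIsoOfSurjective (semiBelow b) (strictMono_semiBelow b) (surjective_semiBelow b)

/-- The height on the semicircle with the same mass below it. -/
noncomputable def height (b : ℕ) (r : ℝ → ℝ) (s : ℝ) : ℝ :=
  (semiOrder b).symm (massBelow b r s)

theorem semiBelow_height (b : ℕ) (r : ℝ → ℝ) (s : ℝ) :
    semiBelow b (height b r s) = massBelow b r s :=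
  (semiOrder b).apply_symm_apply _

theorem continuous_height (h : Scaled b r) : Continuous (height b r) :=
  (semiOrder b).symm.continuous.comp (continuous_massBelow h)

theorem monotone_height (h : Scaled b r) : Monotone (height b r) :=
  fun _ _ hst => (semiOrder b).symm.monotone (monotone_massBelow h hst)

theorem height_zero (b : ℕ) (r : ℝ → ℝ) : height b r 0 = 0 := by
  apply (strictMono_semiBelow b).injective
  rw [semiBelow_height]
  simp [massBelow, semiBelow]

theorem height_one (h : Scaled b r) : height b r 1 = 1 := by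
  apply (strictMono_semiBelow b).injective
  rw [semiBelow_height, massBelow_one h, semiBelow_one]

theorem height_neg (h : Scaled b r) (s : ℝ) : height b r (-s) = -height b r s := by
  apply (strictMono_semiBelow b).injective
  rw [semiBelow_height, semiBelow_neg, semiBelow_height, massBelow_neg h]

theorem height_nonneg (h : Scaled b r) {s : ℝ} (hs : 0 ≤ s) : 0 ≤ height b r s := by
  simpa [height_zero] using monotone_height h hs

theorem height_lt_one (h : Scaled b r) {s : ℝ} (hs : s < 1) : height b r s < 1 := by
  have h0 : ∀ u, 0 ≤ u → u < 1 → height b r u < 1 := fun u hu0 hu1 => by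
    rw [← (strictMono_semiBelow b).lt_iff_lt, semiBelow_height, semiBelow_one, ← massBelow_one h,
      massBelow, massBelow, ← integral_add_adjacent_intervals
        (intervalIntegrable_powInside h 0 u) (intervalIntegrable_powInside h u 1)]
    have : 0 < ∫ t in u..1, powInside b r t :=
      intervalIntegral_pos_of_pos_on (intervalIntegrable_powInside h u 1)
        (fun t ht => by
          have htm : t ∈ Ioo (-1 : ℝ) 1 := ⟨by linarith [ht.1], ht.2⟩
          rw [powInside, indicator_of_mem htm]
          exact pow_pos (h.pos t htm) b) hu1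
    linarith
  rcases le_total 0 s with hs0 | hs0
  · exact h0 s hs0 hs
  · exact lt_of_le_of_lt (monotone_height h hs0) (by rw [height_zero]; exact one_pos)

theorem abs_height_lt (h : Scaled b r) {s : ℝ} (hs : s ∈ Ioo (-1 : ℝ) 1) :
    |height b r s| < 1 := by
  refine abs_lt.2 ⟨?_, height_lt_one h hs.2⟩
  have := height_lt_one h (s := -s) (by linarith [hs.1])
  rw [height_neg h] at this
  linarith

theorem one_le_abs_height (h : Scaled b r) {s : ℝ} (hs : 1 ≤ |s|) : 1 ≤ |height b r s| := by
  rcases le_abs.1 hs with h1 | h1
  · exact le_abs.2 (Or.inl (by simpa [height_one h] using monotone_height h h1))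
  · refine le_abs.2 (Or.inr ?_)
    have := monotone_height h h1
    rw [height_one h, height_neg h] at this
    exact this

/-- The slope of the height. -/
noncomputable def stretch (b : ℕ) (r : ℝ → ℝ) (s : ℝ) : ℝ :=
  powInside b r s / semicircle (height b r s) ^ b

theorem stretch_nonneg (h : Scaled b r) (s : ℝ) : 0 ≤ stretch b r s :=
  div_nonneg (powInside_nonneg h s) (pow_nonneg (semicircle_nonneg _) b)

theorem stretch_neg (h : Scaled b r) (s : ℝ) : stretch b r (-s) = stretch b r s := by
  simp only [stretch, powInside_neg h, height_neg h, semicircle_neg]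

theorem hasDerivAt_height (h : Scaled b r) {s : ℝ} (hs : s ∈ Ioo (-1 : ℝ) 1) :
    HasDerivAt (height b r) (stretch b r s) s := by
  have hh := abs_height_lt h hs
  have hd := hasDerivAt_semiBelow b ((semiOrder b).symm (massBelow b r s))
  rw [show (semiOrder b).symm (massBelow b r s) = height b r s from rfl,
    semiWeight_inside b hh.le] at hd
  have hinv : HasDerivAt (semiOrder b).symm (semicircle (height b r s) ^ b)⁻¹ (massBelow b r s) :=
    hd.of_local_left_inverse ((semiOrder b).symm.continuous.continuousAt)
      (pow_pos (semicircle_pos (abs_lt.1 hh)) b).ne'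
      (Eventually.of_forall fun y => (semiOrder b).apply_symm_apply y)
  refine (hinv.comp s (hasDerivAt_massBelow h hs)).congr_deriv ?_
  rw [stretch, div_eq_inv_mul]

theorem continuousAt_stretch (h : Scaled b r) {s : ℝ} (hs : s ∈ Ioo (-1 : ℝ) 1) :
    ContinuousAt (stretch b r) s :=
  (continuousAt_powInside h hs).div
    ((continuous_semicircle_pow b).comp (continuous_height h)).continuousAt
    (pow_pos (semicircle_pos (abs_lt.1 (abs_height_lt h hs))) b).ne'

/-- Substitution of the height in an integral against the profile. -/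
theorem integral_comp_height (h : Scaled b r) {φ : ℝ → ℝ} (hφ : Continuous φ) :
    ∫ s in (0 : ℝ)..1, φ (height b r s) * powInside b r s
      = ∫ t in (0 : ℝ)..1, φ t * semicircle t ^ b := by
  set F : ℝ → ℝ := fun u => ∫ t in (0 : ℝ)..u, φ t * semicircle t ^ b
  have hc : Continuous fun t => φ t * semicircle t ^ b := hφ.mul (continuous_semicircle_pow b)
  have hF : ∀ u, HasDerivAt F (φ u * semicircle u ^ b) u := fun u =>
    (hc.integral_hasStrictDerivAt 0 u).hasDerivAt
  have hFc : Continuous F := continuous_iff_continuousAt.2 fun u => (hF u).continuousAt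
  have hint : IntervalIntegrable (fun s => φ (height b r s) * powInside b r s) volume 0 1 :=
    (intervalIntegrable_powInside h 0 1).continuousOn_mul
      (hφ.comp (continuous_height h)).continuousOn
  rw [integral_eq_sub_of_hasDerivAt_of_le (f := fun s => F (height b r s)) zero_le_one
    (hFc.comp (continuous_height h)).continuousOn (fun s hs => ?_) hint]
  · simp [F, height_one h, height_zero]
  · have hs' : s ∈ Ioo (-1 : ℝ) 1 := ⟨by linarith [hs.1], hs.2⟩
    refine ((hF _).comp s (hasDerivAt_height h hs')).congr_deriv ?_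
    rw [stretch, mul_assoc, mul_div_cancel₀ _
      (pow_pos (semicircle_pos (abs_lt.1 (abs_height_lt h hs'))) b).ne']

end Vale.Agent.P237.AllN.Universal
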