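import Vale.Agent.P237.AllN.Universal.Cutoff

/-!
# P237 in all dimensions, up to a constant: the one-dimensional lemma

A profile passing the gate loses at most `loss b T` on the moment quotient.
-/

namespace Vale.Agent.P237.AllN.Universal

open MeasureTheory Set Function Topology Filter intervalIntegral

/-- The gate, for the mass distribution `r ^ b` on `[-1, 1]`. -/
def GateFor (b : ℕ) (r : ℝ → ℝ) : Prop :=
  ∀ (a a1 : ℝ → ℝ) (M : ℝ), (∀ t, HasDerivAt a (a1 t) t) → Continuous a1 → (∀ t, |a t| ≤ M) →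
    (∀ t, |a1 t| ≤ M) →
    2 * (∫ t in (-1 : ℝ)..1, a1 t * r t ^ b)
      ≤ (∫ t in (-1 : ℝ)..1, (((b : ℝ) + 1) * a t ^ 2 + 2 * t * a t * a1 t) * r t ^ b)
        + ∫ t in (-1 : ℝ)..1, r t ^ b

variable {b : ℕ} {r : ℝ → ℝ}

theorem integral_pow_inside (f : ℝ → ℝ) (r : ℝ → ℝ) (b : ℕ) :
    ∫ t in (-1 : ℝ)..1, f t * powInside b r t = ∫ t in (-1 : ℝ)..1, f t * r t ^ b := by
  refine intervalIntegral.integral_congr_ae ?_
  filter_upwards [Measure.ae_ne volume (1 : ℝ)] with t h1 ht
  rw [uIoc_of_le (by norm_num : (-1 : ℝ) ≤ 1)] at ht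
  rw [powInside, indicator_of_mem]
  exact ⟨ht.1, lt_of_le_of_ne ht.2 h1⟩

/-- The cut-off second moment against the height. -/
theorem integral_cut_mul_le {T : ℝ} (hT : 0 < T) (h4 : 4 * T ≤ 1) :
    ∫ t in (0 : ℝ)..1, cut (2 * T) t * t ≤ 8 * T ^ 2 := by
  have hc : Continuous fun t => cut (2 * T) t * t := (continuous_cut _).mul continuous_id
  rw [← integral_add_adjacent_intervals (hc.intervalIntegrable 0 (4 * T))
    (hc.intervalIntegrable (4 * T) 1)]
  have h1 : ∫ t in (4 * T)..1, cut (2 * T) t * t = 0 :=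
    (integral_congr (g := fun _ => (0 : ℝ)) fun u hu => by
      rw [uIcc_of_le h4] at hu
      show cut (2 * T) u * u = 0
      rw [cut_eq_zero (by linarith) (by linarith [hu.1, le_abs_self u]), zero_mul]).trans (by simp)
  rw [h1, add_zero]
  refine le_trans (integral_mono_on (by linarith) (hc.intervalIntegrable _ _)
    (continuous_id.intervalIntegrable _ _) fun t ht =>
      mul_le_of_le_one_left ht.1 (cut_le_one _ _)) (le_of_eq ?_)
  simp only [id_eq, integral_id]
  ring

/-- What the gate says about the mean stretch. -/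
theorem mean_stretch_le (h : Scaled b r) (hg : GateFor b r) {T : ℝ} (hT : 0 < T) (h4 : 4 * T < 1) :
    ∫ s in (0 : ℝ)..1, testSlope b r T s * powInside b r s
      ≤ semiMass b + 12 * T ^ 2 *
        ∫ s in (0 : ℝ)..1, |testSlope b r T s - cut T (height b r s)| * powInside b r s := by
  have hT2 : 2 * T < 1 := by linarith
  set a := testFun b r T
  set a1 := testSlope b r T
  set τ := height b r
  set pw := powInside b r
  have hτc : Continuous τ := continuous_height h
  have ha : Continuous a := (continuous_cutInt T).comp hτc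
  have ha1 : Continuous a1 := continuous_testSlope h hT hT2
  have ha2 : Continuous (testSlope b r (2 * T)) :=
    continuous_testSlope h (by linarith) (by linarith)
  obtain ⟨M, hM⟩ := exists_test_bound h hT hT2
  have key := hg a a1 M (hasDerivAt_testFun h hT hT2) ha1 (fun t => (hM t).1) (fun t => (hM t).2)
  have hint : ∀ {f : ℝ → ℝ}, Continuous f → ∀ x y,
      IntervalIntegrable (fun s => f s * pw s) volume x y := fun hf x y =>
    (intervalIntegrable_powInside h x y).continuousOn_mul hf.continuousOn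
  have hg2 : Continuous fun t => ((b : ℝ) + 1) * a t ^ 2 + 2 * t * a t * a1 t := by fun_prop
  rw [← integral_pow_inside a1 r b,
    ← integral_pow_inside (fun t => ((b : ℝ) + 1) * a t ^ 2 + 2 * t * a t * a1 t) r b,
    integral_even (fun t => by
      show a1 (-t) * pw (-t) = a1 t * pw t
      rw [show pw (-t) = pw t from powInside_neg h t, show a1 (-t) = a1 t from testSlope_neg h T t])
      (hint ha1 _ _),
    integral_even (fun t => by
      show (_ : ℝ) * pw (-t) = _ * pw t
      rw [show pw (-t) = pw t from powInside_neg h t, show a (-t) = -a t from testFun_neg h T t,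
        show a1 (-t) = a1 t from testSlope_neg h T t]
      ring) (hint hg2 _ _)] at key
  have htot : ∫ t in (-1 : ℝ)..1, r t ^ b = 2 * semiMass b := by
    have e := integral_pow_inside (fun _ => (1 : ℝ)) r b
    simp only [one_mul] at e
    rw [← e, integral_even (powInside_neg h) (intervalIntegrable_powInside h _ _)]
    rw [← massBelow_one h]
    rfl
  rw [htot] at key
  set D := ∫ s in (0 : ℝ)..1, |a1 s - cut T (τ s)| * pw s
  have hD : Continuous fun s => |a1 s - cut T (τ s)| := (ha1.sub ((continuous_cut T).comp hτc)).abs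
  -- the profile decreases, so the height cannot lag behind
  have lag : ∀ s ∈ Ioo (0 : ℝ) 1, cut T (τ s) * (s - τ s) * pw s ≤ D := by
    intro s hs
    have hsub : ∀ w ∈ Icc (0 : ℝ) s, w ∈ Ioo (-1 : ℝ) 1 := fun w hw =>
      ⟨by linarith [hw.1], hw.2.trans_lt hs.2⟩
    have hgc : ContinuousOn (stretch b r) (Icc 0 s) := fun w hw =>
      (continuousAt_stretch h (hsub w hw)).continuousWithinAt
    have hi : IntervalIntegrable (stretch b r) volume 0 s := hgc.intervalIntegrable_of_Icc hs.1.le
    have hftc : ∫ w in (0 : ℝ)..s, (1 - stretch b r w) = s - τ s := by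
      rw [intervalIntegral.integral_sub intervalIntegrable_const hi,
        integral_eq_sub_of_hasDerivAt_of_le hs.1.le hτc.continuousOn
          (fun w hw => hasDerivAt_height h (hsub w (Ioo_subset_Icc_self hw))) hi,
        show τ 0 = 0 from height_zero b r]
      simp
    have hpw : 0 ≤ pw s := powInside_nonneg h s
    rw [← hftc, mul_right_comm, ← intervalIntegral.integral_const_mul]
    refine le_trans (integral_mono_on hs.1.le ((intervalIntegrable_const.sub hi).const_mul _)
      (hint hD 0 s) fun w hw => ?_) (integral_mono_interval le_rfl hs.1.le hs.2.le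
        (Eventually.of_forall fun w => mul_nonneg (abs_nonneg _) (powInside_nonneg h w)) (hint hD 0 1))
    have hp : pw s ≤ pw w := by
      simp only [pw, powInside, indicator_of_mem (hsub w hw),
        indicator_of_mem (show s ∈ Ioo (-1 : ℝ) 1 from ⟨by linarith [hs.1], hs.2⟩)]
      exact pow_le_pow_left₀ (h.pos s ⟨by linarith [hs.1], hs.2⟩).le
        (h.anti hw.1 hw.2 hs.2.le) b
    have hc : cut T (τ s) ≤ cut T (τ w) := cut_anti hT (by
      rw [abs_of_nonneg (height_nonneg h hw.1), abs_of_nonneg (height_nonneg h hs.1.le)]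
      exact monotone_height h hw.2)
    have e : a1 w - cut T (τ w) = cut T (τ w) * (stretch b r w - 1) := by
      simp only [a1, testSlope, τ]; ring
    rw [e, abs_mul, abs_of_nonneg (cut_nonneg _ _)]
    calc cut T (τ s) * pw s * (1 - stretch b r w)
        ≤ cut T (τ s) * pw s * |stretch b r w - 1| :=
          mul_le_mul_of_nonneg_left (by rw [abs_sub_comm]; exact le_abs_self _)
            (mul_nonneg (cut_nonneg _ _) hpw)
      _ ≤ cut T (τ w) * pw w * |stretch b r w - 1| :=
          mul_le_mul_of_nonneg_right (mul_le_mul hc hp hpw (cut_nonneg _ _)) (abs_nonneg _)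
      _ = _ := by ring
  have hD0 : 0 ≤ D := intervalIntegral.integral_nonneg zero_le_one fun s _ =>
    mul_nonneg (abs_nonneg _) (powInside_nonneg h s)
  have hcross : ∀ s ∈ Ioo (0 : ℝ) 1, s * a s * a1 s * pw s
      ≤ τ s ^ 2 * pw s + 4 * T ^ 2 * (|a1 s - cut T (τ s)| * pw s)
        + D * (τ s * testSlope b r (2 * T) s) := by
    intro s hs
    have hτ0 : 0 ≤ τ s := height_nonneg h hs.1.le
    have hpw : 0 ≤ pw s := powInside_nonneg h s
    have hst := stretch_nonneg h s
    have hc0 := cut_nonneg T (τ s)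
    have ha1v : a1 s = cut T (τ s) * stretch b r s := rfl
    rcases eq_or_ne (cut T (τ s)) 0 with hz | hz
    · have h1 : 0 ≤ testSlope b r (2 * T) s := mul_nonneg (cut_nonneg _ _) hst
      rw [ha1v, hz]
      simp only [zero_mul, mul_zero, sub_zero, abs_zero]
      positivity
    have hτT : τ s ≤ 2 * T := (le_abs_self _).trans (abs_lt_of_cut_ne hT hz).le
    have h2T : testSlope b r (2 * T) s = stretch b r s := by
      rw [testSlope, cut_eq_one (by linarith) (by rwa [abs_of_nonneg hτ0]), one_mul]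
    have hlag := lag s hs
    have e1 : s * a s * a1 s * pw s ≤ s * τ s * a1 s * pw s := by
      refine mul_le_mul_of_nonneg_right (mul_le_mul_of_nonneg_right
        (mul_le_mul_of_nonneg_left (cutInt_le T hτ0) hs.1.le) ?_) hpw
      rw [ha1v]; positivity
    have e2 : τ s ^ 2 * (a1 s - cut T (τ s)) ≤ 4 * T ^ 2 * |a1 s - cut T (τ s)| :=
      le_trans (mul_le_mul_of_nonneg_left (le_abs_self _) (sq_nonneg _))
        (mul_le_mul_of_nonneg_right (by nlinarith) (abs_nonneg _))
    have e3 : τ s ^ 2 * cut T (τ s) ≤ τ s ^ 2 :=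
      mul_le_of_le_one_right (sq_nonneg _) (cut_le_one _ _)
    have e4 := mul_le_mul_of_nonneg_left hlag (mul_nonneg hτ0 hst)
    rw [h2T]
    rw [ha1v] at e1 e2 ⊢
    nlinarith [mul_le_mul_of_nonneg_right e2 hpw, mul_le_mul_of_nonneg_right e3 hpw]
  have hθ : ∫ s in (0 : ℝ)..1, τ s * testSlope b r (2 * T) s ≤ 8 * T ^ 2 := by
    set F : ℝ → ℝ := fun u => ∫ t in (0 : ℝ)..u, cut (2 * T) t * t
    have hF : ∀ u, HasDerivAt F (cut (2 * T) u * u) u := fun u =>
      (((continuous_cut _).mul continuous_id).integral_hasStrictDerivAt 0 u).hasDerivAt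
    have hti : IntervalIntegrable (fun s => τ s * testSlope b r (2 * T) s) volume 0 1 :=
      (hτc.mul ha2).intervalIntegrable _ _
    rw [integral_eq_sub_of_hasDerivAt_of_le (f := fun s => F (τ s))
      (f' := fun s => τ s * testSlope b r (2 * T) s) zero_le_one
      ((continuous_iff_continuousAt.2 fun u => (hF u).continuousAt).comp hτc).continuousOn
      (fun s hs => ((hF _).comp s (hasDerivAt_height h ⟨by linarith [hs.1], hs.2⟩)).congr_deriv
        (by simp only [τ, testSlope]; ring))
      hti]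
    simp only [τ, height_one h, height_zero, F, integral_same, sub_zero]
    exact integral_cut_mul_le hT h4.le
  have hca : Continuous fun s => s * a s * a1 s := by fun_prop
  have hτ2 : Continuous fun s => τ s ^ 2 := by fun_prop
  have hti : IntervalIntegrable (fun s => D * (τ s * testSlope b r (2 * T) s)) volume 0 1 :=
    ((hτc.mul ha2).intervalIntegrable 0 1).const_mul D
  have hcr : ∫ s in (0 : ℝ)..1, s * a s * a1 s * pw s
      ≤ (∫ s in (0 : ℝ)..1, τ s ^ 2 * pw s) + 12 * T ^ 2 * D := by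
    refine le_trans (integral_mono_on_of_le_Ioo zero_le_one (hint hca _ _)
      (((hint hτ2 _ _).add ((hint hD _ _).const_mul _)).add hti) hcross) ?_
    rw [intervalIntegral.integral_add ((hint hτ2 _ _).add ((hint hD _ _).const_mul _)) hti,
      intervalIntegral.integral_add (hint hτ2 _ _) ((hint hD _ _).const_mul _),
      intervalIntegral.integral_const_mul, intervalIntegral.integral_const_mul]
    have := mul_le_mul_of_nonneg_left hθ hD0
    linarith
  have hsq : ∫ s in (0 : ℝ)..1, a s ^ 2 * pw s ≤ ∫ s in (0 : ℝ)..1, τ s ^ 2 * pw s := by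
    refine integral_mono_on zero_le_one (hint (ha.pow 2) _ _) (hint (hτc.pow 2) _ _) fun s hs => ?_
    exact mul_le_mul_of_nonneg_right (pow_le_pow_left₀ (cutInt_nonneg T (height_nonneg h hs.1))
      (cutInt_le T (height_nonneg h hs.1)) 2) (powInside_nonneg h s)
  have hm : ∫ s in (0 : ℝ)..1, τ s ^ 2 * pw s = ∫ t in (0 : ℝ)..1, t ^ 2 * semicircle t ^ b :=
    integral_comp_height h (φ := fun t => t ^ 2) (continuous_pow 2)
  have hsplit : ∫ s in (0 : ℝ)..1, (((b : ℝ) + 1) * a s ^ 2 + 2 * s * a s * a1 s) * pw s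
      = ((b : ℝ) + 1) * (∫ s in (0 : ℝ)..1, a s ^ 2 * pw s)
        + 2 * ∫ s in (0 : ℝ)..1, s * a s * a1 s * pw s := by
    rw [← intervalIntegral.integral_const_mul, ← intervalIntegral.integral_const_mul,
      ← intervalIntegral.integral_add
        ((hint (show Continuous fun s => a s ^ 2 from ha.pow 2) _ _).const_mul _)
        ((hint hca _ _).const_mul 2)]
    exact integral_congr fun s _ => by ring
  have h2 := moment_two b
  have hb1 := mul_le_mul_of_nonneg_left hsq (by positivity : (0 : ℝ) ≤ (b : ℝ) + 1)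
  rw [hsplit] at key
  nlinarith

/-- The loss of a profile that passes the gate. -/
noncomputable def loss (b : ℕ) (T : ℝ) : ℝ :=
  (b : ℝ) * (2 * ((b - 1 : ℕ) : ℝ) * Real.exp (-(((b - 1 : ℕ) : ℝ) * T ^ 2 / 2)))
    + 2 * (b : ℝ) * Real.exp (-((b : ℝ) * T ^ 2 / 2)) + 8 * (20 * T ^ 2 + 1 / (b : ℝ)) ^ 2

/-- The tangent bound for the logarithm. -/
theorem log_defect {g l : ℝ} (hg : 0 < g) (hl : 0 ≤ l) (hl2 : l ≤ 1 / 2) :
    l * |g - 1| - 2 * l ^ 2 ≤ g - 1 - Real.log g := by
  rcases le_total 1 g with h1 | h1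
  · have hc : 0 < 1 - l := by linarith
    have e := Real.log_le_sub_one_of_pos (mul_pos hc hg)
    have e2 := Real.log_le_sub_one_of_pos (inv_pos.2 hc)
    rw [Real.log_mul hc.ne' hg.ne'] at e
    rw [Real.log_inv] at e2
    have e3 : (1 - l)⁻¹ - 1 ≤ l + 2 * l ^ 2 := by
      rw [sub_le_iff_le_add, inv_eq_one_div, div_le_iff₀ hc]; nlinarith
    rw [abs_of_nonneg (by linarith)]
    nlinarith
  · have hc : 0 < 1 + l := by linarith
    have e := Real.log_le_sub_one_of_pos (mul_pos hc hg)
    have e2 := Real.log_le_sub_one_of_pos (inv_pos.2 hc)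
    rw [Real.log_mul hc.ne' hg.ne'] at e
    rw [Real.log_inv] at e2
    have e3 : (1 + l)⁻¹ - 1 ≤ -l + 2 * l ^ 2 := by
      rw [sub_le_iff_le_add, inv_eq_one_div, div_le_iff₀ hc]; nlinarith
    rw [abs_of_nonpos (by linarith)]
    nlinarith

/-- Away from the ends of the cut-off, the reciprocal of the semicircle is close to one. -/
theorem inv_semicircle_near {T : ℝ} (hT : 0 < T) (hT8 : T ≤ 1 / 8) {t : ℝ} (ht : cut T t ≠ 0) :
    (max (semicircle t) (1 / 2))⁻¹ = (semicircle t)⁻¹ ∧ 1 ≤ (semicircle t)⁻¹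
      ∧ (semicircle t)⁻¹ ≤ 1 + 8 * T ^ 2 ∧ 0 < semicircle t := by
  have h2 := abs_lt.1 (abs_lt_of_cut_ne hT ht)
  have ht2 : t ^ 2 ≤ 4 * T ^ 2 := by nlinarith [h2.1, h2.2]
  have hT2 : T ^ 2 ≤ 1 / 64 := by nlinarith
  have hsq := semicircle_sq (t := t) ⟨by linarith [h2.1], by linarith [h2.2]⟩
  have h0 := semicircle_nonneg t
  have h1 := semicircle_le_one t
  have hlow : 1 - 4 * T ^ 2 ≤ semicircle t := by nlinarith
  have hpos : 0 < semicircle t := by linarith
  refine ⟨by rw [max_eq_left (by linarith)], (one_le_inv₀ hpos).2 h1, ?_, hpos⟩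
  rw [inv_eq_one_div, div_le_iff₀ hpos]
  nlinarith

/-- The stretch dominates its linearisation. -/
theorem stretch_pointwise (h : Scaled b r) (hb : 1 ≤ b) {T q l κ : ℝ} (hT : 0 < T) (hT8 : T ≤ 1 / 8)
    (hq : q ≤ 1) (hq' : 1 - 1 / (b : ℝ) ≤ q) (hl0 : 0 ≤ l) (hl2 : l ≤ 1 / 2)
    (hη2 : 8 * T ^ 2 + 1 / (b : ℝ) ≤ 1 / 2)
    (he2 : (1 - (8 * T ^ 2 + 1 / (b : ℝ))) * l = κ + (8 * T ^ 2 + 1 / (b : ℝ)))
    {s : ℝ} (hs : s ∈ Ioo (0 : ℝ) 1) :
    (1 - 2 * l ^ 2) * (cut T (height b r s) * powInside b r s)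
      + ((b : ℝ) * q) * (cut T (height b r s) * (max (semicircle (height b r s)) (1 / 2))⁻¹
          * powInside b r s
        - cut T (height b r s) * (Ioo (-1 : ℝ) 1).indicator (fun t => r t ^ (b - 1)) s)
      + κ * (|testSlope b r T s - cut T (height b r s)| * powInside b r s)
    ≤ testSlope b r T s * powInside b r s := by
  rcases eq_or_ne (cut T (height b r s)) 0 with hz | hz
  · simp [testSlope, hz]
  have hb' : (0 : ℝ) < b := Nat.cast_pos.2 hb
  have hq0 : 0 ≤ q := le_trans (sub_nonneg.2 ((div_le_one hb').2 (Nat.one_le_cast.2 hb))) hq'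
  obtain ⟨hWs, hW1, hW2, hσ⟩ := inv_semicircle_near hT hT8 hz
  have hsm : s ∈ Ioo (-1 : ℝ) 1 := ⟨by linarith [hs.1], hs.2⟩
  have hr := h.pos s hsm
  set τ := height b r
  set η : ℝ := 8 * T ^ 2 + 1 / (b : ℝ)
  have hη0 : 0 ≤ η := by positivity
  set χ := cut T (τ s)
  have hχ : 0 ≤ χ := cut_nonneg _ _
  set g := stretch b r s
  set ρ := semicircle (τ s) / r s
  have hρ : 0 < ρ := div_pos hσ hr
  have hpw : powInside b r s = r s ^ b := indicator_of_mem hsm _
  have hgρ : g = (r s / semicircle (τ s)) ^ b := by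
    simp only [g, stretch, powInside, indicator_of_mem hsm, div_pow, τ]
  have hg0 : 0 < g := hgρ ▸ pow_pos (div_pos hr hσ) b
  set H := (b : ℝ) * (1 - ρ)
  have hH : H ≤ Real.log g := by
    rw [hgρ, Real.log_pow, ← inv_div, Real.log_inv]
    have := Real.log_le_sub_one_of_pos hρ
    simp only [H, ρ] at this ⊢
    nlinarith
  set w := q * (semicircle (τ s))⁻¹
  have hw : |w - 1| ≤ η := by
    rw [abs_le]
    constructor
    · have : q * 1 ≤ w := mul_le_mul_of_nonneg_left hW1 hq0
      simp only [η]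
      nlinarith [sq_nonneg T]
    · have : w ≤ 1 * (semicircle (τ s))⁻¹ := mul_le_mul_of_nonneg_right hq (by linarith)
      have : (0 : ℝ) ≤ 1 / (b : ℝ) := by positivity
      simp only [η]
      linarith
  have hψ : 0 ≤ g - 1 - H := by linarith [Real.log_le_sub_one_of_pos hg0]
  have hHabs : |H| ≤ |g - 1| + (g - 1 - H) := by
    have := abs_nonneg (g - 1)
    rcases abs_choice H with e | e <;> rw [e] <;> linarith [le_abs_self (g - 1), neg_abs_le (g - 1)]
  have hwH : w * H - H ≤ η * |g - 1| + η * (g - 1 - H) := by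
    calc w * H - H = (w - 1) * H := by ring
      _ ≤ |(w - 1) * H| := le_abs_self _
      _ ≤ η * |H| := by rw [abs_mul]; exact mul_le_mul_of_nonneg_right hw (abs_nonneg _)
      _ ≤ _ := by rw [← mul_add]; exact mul_le_mul_of_nonneg_left hHabs hη0
  have hdef : (κ + η) * |g - 1| - 2 * l ^ 2 ≤ (1 - η) * (g - 1 - H) := by
    have e := mul_le_mul_of_nonneg_left
      (le_trans (log_defect hg0 hl0 hl2) (show g - 1 - Real.log g ≤ g - 1 - H by linarith))
      (show 0 ≤ 1 - η by linarith)
    rw [mul_sub, ← mul_assoc, he2] at e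
    have : (1 - η) * (2 * l ^ 2) ≤ 1 * (2 * l ^ 2) :=
      mul_le_mul_of_nonneg_right (by linarith) (by positivity)
    linarith
  have main : 1 - 2 * l ^ 2 + w * H + κ * |g - 1| ≤ g := by linarith
  have ea : testSlope b r T s = χ * g := rfl
  have eabs : |testSlope b r T s - χ| = χ * |g - 1| := by
    rw [ea, show χ * g - χ = χ * (g - 1) by ring, abs_mul, abs_of_nonneg hχ]
  have eq1 : (b : ℝ) * q * (χ * (semicircle (τ s))⁻¹ * r s ^ b - χ * r s ^ (b - 1))
      = w * H * (χ * r s ^ b) := by
    obtain ⟨j, hj⟩ : ∃ j, b = j + 1 := ⟨b - 1, by omega⟩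
    have e : r s ^ b = r s ^ (b - 1) * r s := by rw [← pow_succ]; congr 1; omega
    rw [e]
    simp only [w, H, ρ]
    field_simp
  rw [hWs, hpw, indicator_of_mem hsm, eq1, eabs, ea]
  have := mul_le_mul_of_nonneg_right main (mul_nonneg hχ (pow_nonneg hr.le b))
  linarith

/-- The one-dimensional lemma. -/
theorem scaled_loss (h : Scaled b r) (hg : GateFor b r) (hb : 2 ≤ b) {T : ℝ} (hT : 0 < T)
    (hsmall : 20 * T ^ 2 + 1 / (b : ℝ) ≤ 1 / 4) :
    (b : ℝ) * (1 - (∫ t in (0 : ℝ)..1, r t ^ (b - 1)) / semiMass (b - 1)) ≤ loss b T := by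
  have hb' : (0 : ℝ) < b := Nat.cast_pos.2 (by omega)
  have hTsq : T ^ 2 ≤ 1 / 80 := by
    have : (0 : ℝ) ≤ 1 / (b : ℝ) := by positivity
    linarith
  have hT8 : T ≤ 1 / 8 := by nlinarith
  have hms := mean_stretch_le h hg hT (by linarith)
  set τ := height b r
  set pw := powInside b r
  set q1 : ℝ → ℝ := (Ioo (-1 : ℝ) 1).indicator fun t => r t ^ (b - 1)
  set c := semiMass b
  set c1 := semiMass (b - 1)
  have hc : 0 < c := semiMass_pos b
  have hc1 : 0 < c1 := semiMass_pos _
  have hcc : c / c1 ≤ 1 := by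
    rw [div_le_one hc1]
    have := semiMass_succ_le (b - 1)
    rwa [show b - 1 + 1 = b by omega] at this
  have hcc' : 1 - 1 / (b : ℝ) ≤ c / c1 := by
    have := semiMass_le_succ (b - 1)
    rw [show b - 1 + 1 = b by omega, Nat.cast_sub (by omega), Nat.cast_one] at this
    rw [le_div_iff₀ hc1, one_sub_div hb'.ne', div_mul_eq_mul_div, div_le_iff₀ hb']
    nlinarith [hc.le, mul_nonneg (sub_nonneg.2 (hcc)) hc1.le, semiMass_pos (b - 1)]
  set η : ℝ := 8 * T ^ 2 + 1 / (b : ℝ)
  set κ : ℝ := 12 * T ^ 2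
  have hη0 : 0 ≤ η := by positivity
  have hκη : κ + η ≤ 1 / 4 := by simp only [κ, η]; linarith
  have hη2 : η ≤ 1 / 2 := by
    have : 0 ≤ κ := by positivity
    linarith
  set l : ℝ := (κ + η) / (1 - η)
  have hl0 : 0 ≤ l := div_nonneg (by positivity) (by linarith)
  have hl1 : l ≤ 2 * (κ + η) := by
    rw [div_le_iff₀ (by linarith)]; nlinarith [show (0 : ℝ) ≤ κ + η by positivity]
  set W : ℝ → ℝ := fun t => (max (semicircle t) (1 / 2))⁻¹
  have hW : Continuous W := (continuous_semicircle.max continuous_const).inv₀ fun t =>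
    (lt_max_of_lt_right (by norm_num : (0 : ℝ) < 1 / 2)).ne'
  -- the integrands
  have hτc : Continuous τ := continuous_height h
  have hcut : Continuous fun s => cut T (τ s) := (continuous_cut T).comp hτc
  have ha1 := continuous_testSlope h hT (show 2 * T < 1 by linarith)
  have hint : ∀ {f : ℝ → ℝ}, Continuous f → ∀ x y,
      IntervalIntegrable (fun s => f s * pw s) volume x y := fun hf x y =>
    (intervalIntegrable_powInside h x y).continuousOn_mul hf.continuousOn
  have hint1 : IntervalIntegrable (fun s => cut T (τ s) * q1 s) volume 0 1 :=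
    ((h.integrable_pow (b - 1)).intervalIntegrable).continuousOn_mul hcut.continuousOn
  have hD : Continuous fun s => |testSlope b r T s - cut T (τ s)| := (ha1.sub hcut).abs
  have hW' : Continuous fun s => cut T (τ s) * W (τ s) := hcut.mul (hW.comp hτc)
  -- pointwise
  have he2 : (1 - η) * l = κ + η := by
    simp only [l]
    rw [mul_div_cancel₀ _ (by linarith)]
  have hpt := fun s hs => stretch_pointwise h (by omega) hT hT8 hcc hcc' hl0
    (hl1.trans (by linarith)) hη2 he2 (s := s) hs
  have hI := integral_mono_on_of_le_Ioo zero_le_one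
    ((((hint hcut 0 1).const_mul _).add (((hint hW' 0 1).sub hint1).const_mul _)).add
      ((hint hD 0 1).const_mul κ)) (hint ha1 0 1) hpt
  rw [intervalIntegral.integral_add (((hint hcut 0 1).const_mul _).add
      (((hint hW' 0 1).sub hint1).const_mul _)) ((hint hD 0 1).const_mul κ),
    intervalIntegral.integral_add ((hint hcut 0 1).const_mul _)
      (((hint hW' 0 1).sub hint1).const_mul _),
    intervalIntegral.integral_const_mul, intervalIntegral.integral_const_mul,
    intervalIntegral.integral_const_mul, intervalIntegral.integral_sub (hint hW' 0 1) hint1] at hI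
  -- the semicircle's side
  have hcutσ : ∀ j : ℕ, semiMass j - (∫ t in T..1, semicircle t ^ j)
      ≤ ∫ t in (0 : ℝ)..1, cut T t * semicircle t ^ j := by
    intro j
    have hcs : Continuous fun t => cut T t * semicircle t ^ j :=
      (continuous_cut T).mul (continuous_semicircle_pow j)
    have hi := fun x y : ℝ => (continuous_semicircle_pow j).intervalIntegrable (μ := volume) x y
    rw [semiMass, ← integral_add_adjacent_intervals (hi 0 T) (hi T 1), add_sub_cancel_right,
      ← integral_add_adjacent_intervals (hcs.intervalIntegrable 0 T) (hcs.intervalIntegrable T 1)]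
    have e : ∫ t in (0 : ℝ)..T, cut T t * semicircle t ^ j = ∫ t in (0 : ℝ)..T, semicircle t ^ j :=
      integral_congr fun t ht => by
        rw [uIcc_of_le hT.le] at ht
        show cut T t * _ = _
        rw [cut_eq_one hT (by rw [abs_of_nonneg ht.1]; exact ht.2), one_mul]
    have : 0 ≤ ∫ t in T..1, cut T t * semicircle t ^ j :=
      intervalIntegral.integral_nonneg (by linarith) fun t _ =>
        mul_nonneg (cut_nonneg _ _) (pow_nonneg (semicircle_nonneg t) j)
    linarith
  have hE1 : ∫ s in (0 : ℝ)..1, cut T (τ s) * pw s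
      = ∫ t in (0 : ℝ)..1, cut T t * semicircle t ^ b := integral_comp_height h (continuous_cut T)
  have hE2 : ∫ s in (0 : ℝ)..1, cut T (τ s) * W (τ s) * pw s
      = ∫ t in (0 : ℝ)..1, cut T t * semicircle t ^ (b - 1) := by
    rw [integral_comp_height h (φ := fun t => cut T t * W t) ((continuous_cut T).mul hW)]
    refine integral_congr fun t _ => ?_
    rcases eq_or_ne (cut T t) 0 with hz | hz
    · simp [hz]
    · obtain ⟨hWs, -, -, hσ⟩ := inv_semicircle_near hT hT8 hz
      show cut T t * W t * semicircle t ^ b = _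
      obtain ⟨j, rfl⟩ : ∃ j, b = j + 1 := ⟨b - 1, by omega⟩
      simp only [W]
      rw [hWs, Nat.add_sub_cancel, pow_succ]
      field_simp
  have hq : ∫ s in (0 : ℝ)..1, cut T (τ s) * q1 s ≤ ∫ t in (0 : ℝ)..1, r t ^ (b - 1) := by
    rw [← integral_indicator_pow r (b - 1)]
    refine integral_mono_on zero_le_one hint1 (h.integrable_pow (b - 1)).intervalIntegrable
      fun s _ => mul_le_of_le_one_left (indicator_nonneg (fun t ht => pow_nonneg (h.pos t ht).le _) s)
        (cut_le_one _ _)
  have hup : ∫ t in (0 : ℝ)..1, cut T t * semicircle t ^ b ≤ c :=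
    integral_mono_on zero_le_one (((continuous_cut T).mul (continuous_semicircle_pow b)).intervalIntegrable _ _)
      ((continuous_semicircle_pow b).intervalIntegrable _ _) fun t _ =>
        mul_le_of_le_one_left (pow_nonneg (semicircle_nonneg t) b) (cut_le_one _ _)
  have ht0 := tail_le (show 0 < b by omega) hT.le (show T ≤ 1 by linarith)
  have ht1 := tail_le (show 0 < b - 1 by omega) hT.le (show T ≤ 1 by linarith)
  rw [hE1, hE2] at hI
  set X := ∫ t in (0 : ℝ)..1, r t ^ (b - 1)
  set e0 := Real.exp (-((b : ℝ) * T ^ 2 / 2))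
  set e1 := Real.exp (-(((b - 1 : ℕ) : ℝ) * T ^ 2 / 2))
  set k1 := 2 * ((b - 1 : ℕ) : ℝ) * e1
  set k0 := 2 * (b : ℝ) * e0
  have hl8 : 2 * l ^ 2 ≤ 8 * (20 * T ^ 2 + 1 / (b : ℝ)) ^ 2 := by
    have e : κ + η = 20 * T ^ 2 + 1 / (b : ℝ) := by simp only [κ, η]; ring
    rw [← e]
    nlinarith
  have hlo := hcutσ b
  have hlo1 := hcutσ (b - 1)
  have hk : 0 ≤ (b : ℝ) * (c / c1) := by positivity
  have step : (b : ℝ) * (c / c1) * (c1 - k1 * c1 - X) ≤ k0 * c + 2 * l ^ 2 * c := by
    have h1 := mul_le_mul_of_nonneg_left (show c1 - k1 * c1 - X ≤ (∫ t in (0 : ℝ)..1,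
      cut T t * semicircle t ^ (b - 1)) - ∫ s in (0 : ℝ)..1, cut T (τ s) * q1 s by linarith) hk
    have h2 := mul_le_mul_of_nonneg_left hup (show 0 ≤ 2 * l ^ 2 by positivity)
    linarith
  have e : (b : ℝ) * (c / c1) * (c1 - k1 * c1 - X) = ((b : ℝ) * (1 - X / c1) - b * k1) * c := by
    field_simp
    ring
  rw [e, ← add_mul] at step
  have := le_of_mul_le_mul_right step hc
  simp only [loss]
  linarith

end Vale.Agent.P237.AllN.Universal
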