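import Vale.Agent.P237.AllN.Ball

/-!
# P237 in all dimensions, up to a constant: moments and tails of the semicircle
-/

namespace Vale.Agent.P237.AllN.Universal

open MeasureTheory Set Function Topology intervalIntegral

/-- Half the mass of a power of the semicircle. -/
noncomputable def semiMass (b : ℕ) : ℝ := ∫ t in (0 : ℝ)..1, semicircle t ^ b

theorem semicircle_neg (t : ℝ) : semicircle (-t) = semicircle t := by simp [semicircle]

theorem semicircle_le_one (t : ℝ) : semicircle t ≤ 1 :=
  Real.sqrt_le_one.2 (by nlinarith [sq_nonneg t])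

theorem semicircle_sq {t : ℝ} (ht : t ∈ Icc (-1 : ℝ) 1) : semicircle t ^ 2 = 1 - t ^ 2 :=
  Real.sq_sqrt (by nlinarith [ht.1, ht.2])

theorem semicircle_pos {t : ℝ} (ht : t ∈ Ioo (-1 : ℝ) 1) : 0 < semicircle t :=
  Real.sqrt_pos.2 (by nlinarith [ht.1, ht.2])

theorem semicircle_anti {s t : ℝ} (hs : 0 ≤ s) (hst : s ≤ t) : semicircle t ≤ semicircle s :=
  Real.sqrt_le_sqrt (by nlinarith)

theorem continuous_semicircle_pow (b : ℕ) : Continuous fun t => semicircle t ^ b :=
  continuous_semicircle.pow b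

theorem integral_even {f : ℝ → ℝ} (hf : ∀ t, f (-t) = f t)
    (hi : IntervalIntegrable f volume (-1) 1) :
    ∫ t in (-1 : ℝ)..1, f t = 2 * ∫ t in (0 : ℝ)..1, f t := by
  have h1 : IntervalIntegrable f volume (-1) 0 := hi.mono_set (by
    rw [uIcc_of_le (by norm_num), uIcc_of_le (by norm_num)]; exact Icc_subset_Icc le_rfl zero_le_one)
  have h2 : IntervalIntegrable f volume 0 1 := hi.mono_set (by
    rw [uIcc_of_le (by norm_num), uIcc_of_le (by norm_num)]
    exact Icc_subset_Icc (by norm_num) le_rfl)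
  have h3 : ∫ t in (-1 : ℝ)..0, f t = ∫ t in (0 : ℝ)..1, f t := by
    have h := integral_comp_neg (a := 0) (b := 1) f
    rw [neg_zero] at h
    rw [← h]
    exact integral_congr fun t _ => hf t
  rw [← integral_add_adjacent_intervals h1 h2, h3]
  ring

theorem integral_semicircle_eq (b : ℕ) :
    ∫ t in (-1 : ℝ)..1, semicircle t ^ b = 2 * semiMass b :=
  integral_even (fun t => by rw [semicircle_neg]) ((continuous_semicircle_pow b).intervalIntegrable _ _)

theorem semiMass_pos (b : ℕ) : 0 < semiMass b :=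
  intervalIntegral.integral_pos zero_lt_one (continuous_semicircle_pow b).continuousOn
    (fun t _ => pow_nonneg (semicircle_nonneg t) b)
    ⟨0, ⟨le_rfl, zero_le_one⟩, by simp [semicircle]⟩

theorem semiMass_succ_le (b : ℕ) : semiMass (b + 1) ≤ semiMass b :=
  integral_mono_on zero_le_one ((continuous_semicircle_pow _).intervalIntegrable _ _)
    ((continuous_semicircle_pow _).intervalIntegrable _ _) fun t _ =>
      pow_le_pow_of_le_one (semicircle_nonneg t) (semicircle_le_one t) (Nat.le_succ b)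

theorem semiMass_add_two (j : ℕ) :
    ((j : ℝ) + 3) * semiMass (j + 2) = ((j : ℝ) + 2) * semiMass j := by
  have h := integral_semicircle_add_two j
  rw [integral_semicircle_eq, integral_semicircle_eq] at h
  linarith

/-- Neighbouring masses differ by a factor close to one. -/
theorem semiMass_le_succ (b : ℕ) :
    ((b : ℝ) + 1) * semiMass b ≤ ((b : ℝ) + 2) * semiMass (b + 1) := by
  rcases Nat.eq_zero_or_pos b with rfl | hb
  · have h1 : semiMass 0 = 1 := by simp [semiMass]
    have h2 := semiMass_add_two 0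
    have h3 := semiMass_succ_le 1
    simp only [zero_add, Nat.cast_zero] at h2 ⊢
    norm_num at h2 h3
    linarith
  · obtain ⟨j, rfl⟩ : ∃ j, b = j + 1 := ⟨b - 1, by omega⟩
    have h2 := semiMass_add_two j
    have h3 := semiMass_succ_le j
    push_cast
    nlinarith [h2, mul_le_mul_of_nonneg_left h3 (by positivity : (0 : ℝ) ≤ (j : ℝ) + 2)]

theorem moment_two (b : ℕ) :
    ((b : ℝ) + 3) * ∫ t in (0 : ℝ)..1, t ^ 2 * semicircle t ^ b = semiMass b := by
  have he : ∫ t in (0 : ℝ)..1, t ^ 2 * semicircle t ^ b = semiMass b - semiMass (b + 2) := by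
    rw [semiMass, semiMass, ← intervalIntegral.integral_sub
      ((continuous_semicircle_pow _).intervalIntegrable _ _)
      ((continuous_semicircle_pow _).intervalIntegrable _ _)]
    refine integral_congr fun t ht => ?_
    rw [uIcc_of_le zero_le_one] at ht
    simp only [pow_add, semicircle_sq ⟨by linarith [ht.1], ht.2⟩]
    ring
  rw [he, mul_sub, semiMass_add_two]
  ring

theorem semiMass_lower {j : ℕ} (hj : 0 < j) : 1 / (2 * (j : ℝ)) ≤ semiMass j := by
  have hj' : (1 : ℝ) ≤ j := Nat.one_le_cast.2 hj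
  set d : ℝ := 1 / (2 * (j : ℝ))
  set A : ℝ := 1 / (j : ℝ)
  have hd : 0 < d := by positivity
  have hA : d ≤ 1 := by
    rw [div_le_one (by positivity)]; linarith
  -- on `[0, 1/j]` the integrand is at least one half
  rcases (Nat.one_le_iff_ne_zero.2 hj.ne').eq_or_lt with rfl | h2
  · have h2 := semiMass_add_two 0
    have h3 := semiMass_succ_le 1
    have h1 : semiMass 0 = 1 := by simp [semiMass]
    simp only [d, zero_add, Nat.cast_zero, Nat.cast_one] at h2 ⊢
    norm_num at h2 h3 ⊢
    linarith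
  have hj2 : (2 : ℝ) ≤ j := by exact_mod_cast h2
  have hA0 : 0 ≤ A := by positivity
  have hA1 : A ≤ 1 := by rw [div_le_one (by positivity)]; linarith
  have key : ∀ t ∈ Icc (0 : ℝ) A, (1 / 2 : ℝ) ≤ semicircle t ^ j := by
    intro t ht
    have ht1 : t ∈ Icc (-1 : ℝ) 1 := ⟨by linarith [ht.1], ht.2.trans hA1⟩
    have h0 := semicircle_nonneg t
    have h1 := semicircle_le_one t
    have hs : semicircle t ^ 2 = 1 - t ^ 2 := semicircle_sq ht1
    have hlow : 1 - t ^ 2 ≤ semicircle t := by nlinarith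
    have ht2 : t ^ 2 ≤ A ^ 2 := by nlinarith [ht.1, ht.2]
    have hber := one_add_mul_le_pow (a := -t ^ 2) (by nlinarith) j
    have hja : (j : ℝ) * A ^ 2 ≤ 1 / 2 := by
      have : (j : ℝ) * A ^ 2 = A := by simp only [A]; field_simp
      rw [this, div_le_iff₀ (by positivity)]; linarith
    calc (1 / 2 : ℝ) ≤ 1 + (j : ℝ) * -t ^ 2 := by nlinarith
      _ ≤ (1 + -t ^ 2) ^ j := hber
      _ ≤ semicircle t ^ j := pow_le_pow_left₀ (by nlinarith) (by linarith) j
  have hsplit : (∫ t in (0 : ℝ)..A, semicircle t ^ j) ≤ semiMass j :=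
    intervalIntegral.integral_mono_interval le_rfl hA0 hA1
      (Filter.Eventually.of_forall fun t => pow_nonneg (semicircle_nonneg t) j)
      ((continuous_semicircle_pow j).intervalIntegrable _ _)
  refine le_trans ?_ hsplit
  refine le_trans (le_of_eq ?_) (integral_mono_on hA0 intervalIntegrable_const
    ((continuous_semicircle_pow j).intervalIntegrable _ _) key)
  rw [intervalIntegral.integral_const]
  simp only [d, A, sub_zero, smul_eq_mul]
  ring

theorem semicircle_pow_le_exp (j : ℕ) {T : ℝ} (hT : T ∈ Icc (-1 : ℝ) 1) :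
    semicircle T ^ j ≤ Real.exp (-((j : ℝ) * T ^ 2 / 2)) := by
  have h : semicircle T ≤ Real.exp (-(T ^ 2 / 2)) := by
    refine (pow_le_pow_iff_left₀ (semicircle_nonneg T) (Real.exp_nonneg _) two_ne_zero).1 ?_
    rw [semicircle_sq hT, ← Real.exp_nat_mul]
    refine le_trans ?_ (Real.add_one_le_exp _)
    push_cast
    linarith
  calc semicircle T ^ j ≤ Real.exp (-(T ^ 2 / 2)) ^ j := pow_le_pow_left₀ (semicircle_nonneg T) h j
    _ = _ := by rw [← Real.exp_nat_mul]; ring_nf

/-- The tail beyond `T`, relative to the mass. -/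
theorem tail_le {j : ℕ} (hj : 0 < j) {T : ℝ} (h0 : 0 ≤ T) (h1 : T ≤ 1) :
    ∫ t in T..1, semicircle t ^ j
      ≤ 2 * (j : ℝ) * Real.exp (-((j : ℝ) * T ^ 2 / 2)) * semiMass j := by
  have hm := semiMass_lower hj
  have hj' : (0 : ℝ) < j := Nat.cast_pos.2 hj
  have hb : ∫ t in T..1, semicircle t ^ j ≤ (1 - T) * semicircle T ^ j := by
    refine le_trans (integral_mono_on h1 ((continuous_semicircle_pow j).intervalIntegrable _ _)
      intervalIntegrable_const fun t ht =>
        pow_le_pow_left₀ (semicircle_nonneg t) (semicircle_anti h0 ht.1) j) (le_of_eq ?_)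
    rw [intervalIntegral.integral_const, smul_eq_mul]
  have he := semicircle_pow_le_exp j (T := T) ⟨by linarith, h1⟩
  have h2 : 1 ≤ 2 * (j : ℝ) * semiMass j := by
    rw [div_le_iff₀ (by positivity)] at hm; linarith
  calc ∫ t in T..1, semicircle t ^ j ≤ (1 - T) * semicircle T ^ j := hb
    _ ≤ 1 * Real.exp (-((j : ℝ) * T ^ 2 / 2)) :=
        mul_le_mul (by linarith) he (pow_nonneg (semicircle_nonneg T) j) zero_le_one
    _ ≤ 2 * (j : ℝ) * semiMass j * Real.exp (-((j : ℝ) * T ^ 2 / 2)) :=
        mul_le_mul_of_nonneg_right h2 (Real.exp_nonneg _)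
    _ = _ := by ring

end Vale.Agent.P237.AllN.Universal
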